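import Vale.Agent.N099.Inf
attribute [-instance] ProperSMul.toContinuousSMul IsTopologicalTorsor.toContinuousSMul IdemSemiring.toCanonicallyOrderedAdd IdemSemiring.toMulLeftMono IdemSemiring.toMulRightMono AddQuantale.instAddLeftMono AddQuantale.instAddRightMono Quantale.instMulLeftMono Quantale.instMulRightMono FiniteDimensional.rclike_to_real IsScalarTower.complexToReal FiniteDimensional.complexToReal
set_option linter.all false

/-!
# Extensions by reflections of a circle
-/

section
open MeasureTheory Set Filter Topology ComplexConjugate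
namespace Vale.Agent.P099

open WM4

lemma exists_unit_root {k : ℤ} (hk : k ≠ 0) {w : ℂ} (hw : ‖w‖ = 1) :
    ∃ e : ℂ, ‖e‖ = 1 ∧ e ^ k = w := by
  refine ⟨Complex.exp ((w.arg / k : ℝ) * Complex.I), Complex.norm_exp_ofReal_mul_I _, ?_⟩
  have hk' : (k : ℂ) ≠ 0 := by exact_mod_cast hk
  rw [← Complex.exp_int_mul]
  have h1 := Complex.norm_mul_exp_arg_mul_I w
  rw [hw, Complex.ofReal_one, one_mul] at h1
  rw [← h1]
  congr 1
  rw [h1]
  push_cast
  field_simp

lemma mul_conj_unit {c : ℂ} (hc : ‖c‖ = 1) : c * conj c = 1 := by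
  rw [Complex.mul_conj, Complex.normSq_eq_norm_sq, hc]; simp

lemma mp_reflC {c : ℂ} (hc : ‖c‖ = 1) : MeasurePreserving (fun z : ℂ => c * conj z) nu nu :=
  (measurePreserving_mul hc).comp measurePreserving_conj

lemma wallMaps_circ {c : Fin 3 → ℂ} (hc : ∀ i, ‖c i‖ = 1) :
    WallMaps nu (fun i z => c i * conj z) := by
  refine ⟨fun i => mp_reflC (hc i), fun i z => ?_⟩
  show c i * conj (c i * conj z) = z
  rw [map_mul, Complex.conj_conj, ← mul_assoc, mul_conj_unit (hc i), one_mul]

lemma ae_norm2 : ∀ᵐ w ∂(nu.prod nu), ‖w.1‖ = 1 ∧ ‖w.2‖ = 1 :=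
  (Measure.quasiMeasurePreserving_fst.ae ae_norm).and (Measure.quasiMeasurePreserving_snd.ae ae_norm)

lemma integrable_modes {f : ℂ × ℂ → ℂ} (hf : Measurable f) {C : ℝ} (hC : ∀ w, ‖f w‖ ≤ C)
    (k l : ℤ) : Integrable (fun w : ℂ × ℂ => f w * w.1 ^ (-k) * w.2 ^ (-l)) (nu.prod nu) := by
  refine Integrable.of_bound ((hf.mul ((measurable_zpow' k).comp measurable_fst)).mul
    ((measurable_zpow' l).comp measurable_snd)).aestronglyMeasurable C ?_
  filter_upwards [ae_norm2] with w hw
  rw [norm_mul, norm_mul, norm_zpow, norm_zpow, hw.1, hw.2, one_zpow, one_zpow, mul_one, mul_one]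
  exact hC w

/-- uniqueness for double Fourier series -/
lemma ae_zero_of_modes {f : ℂ × ℂ → ℂ} (hf : Measurable f) {C : ℝ} (hC : ∀ w, ‖f w‖ ≤ C)
    (h : ∀ k l : ℤ, ∫ w, f w * w.1 ^ (-k) * w.2 ^ (-l) ∂(nu.prod nu) = 0) :
    ∀ᵐ w ∂(nu.prod nu), f w = 0 := by
  have h1 : ∀ᵐ z ∂nu, ∀ k : ℤ, mode k (fun u => f (u, z)) = 0 := by
    rw [ae_all_iff]
    intro k
    have m1 : Measurable fun w : ℂ × ℂ => f w * w.1 ^ (-k) :=
      hf.mul ((measurable_zpow' k).comp measurable_fst)
    have m2 : Measurable fun z => mode k (fun u => f (u, z)) :=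
      (StronglyMeasurable.integral_prod_left (μ := nu) (f := fun u z => f (u, z) * u ^ (-k))
        m1.stronglyMeasurable).measurable
    have b2 : ∀ z, ‖mode k (fun u => f (u, z))‖ ≤ C := by
      intro z
      have := norm_integral_le_of_norm_le_const (μ := nu) (f := fun u => f (u, z) * u ^ (-k))
        (C := C) (by
          filter_upwards [ae_norm] with u hu
          rw [norm_mul, norm_zpow, hu, one_zpow, mul_one]
          exact hC _)
      simpa only [probReal_univ, mul_one, mode] using this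
    refine ae_zero_of_mode _ (MemLp.of_bound m2.aestronglyMeasurable C (ae_of_all _ b2)) fun l => ?_
    rw [← h k l, integral_prod_symm _ (integrable_modes hf hC k l)]
    simp only [mode]
    congr 1
    funext z
    rw [integral_mul_const]
  have hms : MeasurableSet {w : ℂ × ℂ | f w = 0} := measurableSet_eq_fun hf measurable_const
  rw [Measure.ae_prod_iff_ae_ae hms, Measure.ae_ae_comm (p := fun u q => f (u, q) = 0) hms]
  filter_upwards [h1] with z hz
  exact ae_zero_of_mode _ (MemLp.of_bound (hf.comp measurable_prodMk_right).aestronglyMeasurable C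
    (ae_of_all _ fun u => hC _)) hz

namespace Triangle

variable (T : Triangle)

lemma refl_eq_one_mul (i : Fin 3) (u : ℂ) : T.refl i u = T.refl i 1 * conj u := by
  rw [T.refl_eq, T.refl_eq, map_one, mul_one]

lemma norm_refl_one (i : Fin 3) : ‖T.refl i 1‖ = 1 := by
  rw [T.refl_eq, map_one, mul_one, norm_div, Complex.norm_conj,
    div_self (norm_ne_zero_iff.2 (T.d_ne i))]

theorem wallErgodic_circ_of {c : Fin 3 → ℂ} (hc : ∀ i, ‖c i‖ = 1)
    (h : ∀ k l : ℤ, (∀ i j, T.refl i 1 ^ k * c i ^ l = T.refl j 1 ^ k * c j ^ l) → k = 0 ∧ l = 0) :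
    T.WallErgodic nu (fun i z => c i * conj z) := by
  intro B hB hinv
  set a : ℝ := (nu.prod nu).real B with ha
  set f : ℂ × ℂ → ℂ := fun w => ((B.indicator (fun _ => (1:ℝ)) w - a : ℝ) : ℂ) with hf
  have mI : Measurable (B.indicator (fun _ => (1:ℝ))) := measurable_const.indicator hB
  have mf : Measurable f := Complex.measurable_ofReal.comp (mI.sub_const a)
  have bI : ∀ w, |B.indicator (fun _ => (1:ℝ)) w| ≤ 1 := by
    intro w
    by_cases hw : w ∈ B
    · simp [hw]
    · simp [hw]
  have bf : ∀ w, ‖f w‖ ≤ 1 + |a| := by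
    intro w
    simp only [hf, Complex.norm_real, Real.norm_eq_abs]
    exact (abs_sub _ _).trans (add_le_add (bI w) le_rfl)
  have h1 := ae_zero_of_modes mf bf fun k l => by
    by_cases hkl : k = 0 ∧ l = 0
    · obtain ⟨rfl, rfl⟩ := hkl
      simp only [neg_zero, zpow_zero, mul_one, hf]
      rw [integral_complex_ofReal, integral_sub (int_bddR mI bI) (integrable_const _)]
      have : ∫ w, B.indicator (fun _ => (1:ℝ)) w ∂(nu.prod nu) = a := integral_indicator_one hB
      rw [this]
      simp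
    · have key : ∀ i, ∫ w, f w * w.1 ^ (-k) * w.2 ^ (-l) ∂(nu.prod nu) =
          (T.refl i 1 ^ k * c i ^ l)⁻¹ *
            ∫ w, f w * (conj w.1) ^ (-k) * (conj w.2) ^ (-l) ∂(nu.prod nu) := by
        intro i
        have hm : MeasurePreserving (fun w : ℂ × ℂ => (T.refl i w.1, c i * conj w.2))
            (nu.prod nu) (nu.prod nu) := (T.measurePreserving_refl i).prod (mp_reflC (hc i))
        have m1 : Measurable fun w : ℂ × ℂ => f w * w.1 ^ (-k) * w.2 ^ (-l) :=
          (mf.mul ((measurable_zpow' k).comp measurable_fst)).mul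
            ((measurable_zpow' l).comp measurable_snd)
        rw [← hm.map_eq, integral_map hm.measurable.aemeasurable m1.aestronglyMeasurable,
          hm.map_eq, ← integral_const_mul]
        apply integral_congr_ae
        filter_upwards [indicator_inv (hinv i)] with w hw
        have e1 : f (T.refl i w.1, c i * conj w.2) = f w := by
          simp only [hf]
          rw [show B.indicator (fun _ => (1:ℝ)) (T.refl i w.1, c i * conj w.2) =
            B.indicator (fun _ => (1:ℝ)) w from hw]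
        show f (T.refl i w.1, c i * conj w.2) * (T.refl i w.1) ^ (-k) * (c i * conj w.2) ^ (-l) = _
        rw [e1, T.refl_eq_one_mul i w.1, mul_zpow, mul_zpow, mul_inv, ← zpow_neg, ← zpow_neg]
        ring
      have h2 : ¬ ∀ i j, T.refl i 1 ^ k * c i ^ l = T.refl j 1 ^ k * c j ^ l := fun h2 =>
        hkl (h k l h2)
      push Not at h2
      obtain ⟨i, j, hij⟩ := h2
      have h3 := (key i).symm.trans (key j)
      rcases mul_eq_mul_right_iff.1 h3 with h4 | h4
      · exact absurd (inv_injective h4) hij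
      · rw [key i, h4, mul_zero]
  refine zero_one_of_indicator hB (c := a) ?_
  filter_upwards [h1] with w hw
  simp only [hf, Complex.ofReal_eq_zero] at hw
  exact sub_eq_zero.1 hw

theorem of_wallErgodic_circ {c : Fin 3 → ℂ} (hc : ∀ i, ‖c i‖ = 1)
    (hW : T.WallErgodic nu (fun i z => c i * conj z)) {k l : ℤ}
    (h : ∀ i j, T.refl i 1 ^ k * c i ^ l = T.refl j 1 ^ k * c j ^ l) : k = 0 ∧ l = 0 := by
  by_contra hkl
  have hl : ‖T.refl 0 1 ^ k * c 0 ^ l‖ = 1 := by
    rw [norm_mul, norm_zpow, norm_zpow, T.norm_refl_one, hc, one_zpow, one_zpow, mul_one]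
  obtain ⟨e, he, he2⟩ := exists_unit_root (k := 2) two_ne_zero hl
  set ψ : ℂ × ℂ → ℂ := fun w => conj e * (w.1 ^ k * w.2 ^ l) with hψ
  have mψ : Measurable ψ := by
    have m1 : ∀ k : ℤ, Measurable fun u : ℂ => u ^ k := fun k => by
      simpa only [neg_neg] using measurable_zpow' (-k)
    exact (((m1 k).comp measurable_fst).mul ((m1 l).comp measurable_snd)).const_mul _
  have rot : ∀ v : ℂ, ‖v‖ = 1 → ∃ R : ℂ × ℂ → ℂ × ℂ,
      MeasurePreserving R (nu.prod nu) (nu.prod nu) ∧ ∀ w, ψ (R w) = v * ψ w := by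
    intro v hv
    by_cases hk : k = 0
    · have hl0 : l ≠ 0 := fun hl0 => hkl ⟨hk, hl0⟩
      obtain ⟨d, hd, hd2⟩ := exists_unit_root hl0 hv
      refine ⟨fun w => (w.1, d * w.2),
        (MeasurePreserving.id nu).prod (measurePreserving_mul hd), fun w => ?_⟩
      simp only [hψ]
      rw [mul_zpow, hd2]
      ring
    · obtain ⟨d, hd, hd2⟩ := exists_unit_root hk hv
      refine ⟨fun w => (d * w.1, w.2),
        (measurePreserving_mul hd).prod (MeasurePreserving.id nu), fun w => ?_⟩
      simp only [hψ]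
      rw [mul_zpow, hd2]
      ring
  set B : Set (ℂ × ℂ) := {w | 0 < (ψ w).re} with hB
  have mB : MeasurableSet B := measurableSet_lt measurable_const (Complex.measurable_re.comp mψ)
  have hinv : ∀ i, (nu.prod nu) (symmDiff ((fun w : ℂ × ℂ => (T.refl i w.1, c i * conj w.2)) ⁻¹' B) B)
      = 0 := by
    intro i
    refine symmDiff_null_of_ae (ae_of_all _ fun w => ?_)
    have e1 : ψ (T.refl i w.1, c i * conj w.2) = conj (ψ w) := by
      simp only [hψ]
      rw [T.refl_eq_one_mul i w.1, mul_zpow, mul_zpow, map_mul, map_mul, map_zpow₀, map_zpow₀,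
        Complex.conj_conj]
      have e2 : T.refl i 1 ^ k * c i ^ l = e * e := by rw [h i 0, ← he2, zpow_two]
      have e3 := mul_conj_unit he
      linear_combination (conj e * (conj w.1) ^ k * (conj w.2) ^ l) * e2 +
        (e * (conj w.1) ^ k * (conj w.2) ^ l) * e3
    show 0 < (ψ (T.refl i w.1, c i * conj w.2)).re ↔ 0 < (ψ w).re
    rw [e1, Complex.conj_re]
  have tr : ∀ v : ℂ, ‖v‖ = 1 → ∀ P : ℝ → Prop, (∀ᵐ w ∂(nu.prod nu), P (ψ w).re) →
      ∀ᵐ w ∂(nu.prod nu), P (v * ψ w).re := by
    intro v hv P hP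
    obtain ⟨R, hR, hR2⟩ := rot v hv
    filter_upwards [hR.quasiMeasurePreserving.ae hP] with w hw
    rwa [hR2] at hw
  rcases hW B mB hinv with h0 | h1
  · have a0 : ∀ᵐ w ∂(nu.prod nu), ¬ 0 < (ψ w).re := measure_eq_zero_iff_ae_notMem.1 h0
    have a1 := tr (-1) (by simp) (fun x => ¬ 0 < x) a0
    have a2 := tr Complex.I (by simp) (fun x => ¬ 0 < x) a0
    have a3 := tr (-Complex.I) (by simp) (fun x => ¬ 0 < x) a0
    obtain ⟨w, b0, b1, b2, b3, b4⟩ := (a0.and (a1.and (a2.and (a3.and ae_norm2)))).exists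
    have b5 : ‖ψ w‖ = 1 := by
      simp only [hψ]
      rw [norm_mul, norm_mul, norm_zpow, norm_zpow, b4.1, b4.2, Complex.norm_conj, he, one_zpow,
        one_zpow, mul_one, mul_one]
    have b6 : ψ w = 0 := by
      simp only [neg_mul, one_mul, Complex.neg_re, Complex.I_mul_re, not_lt] at b0 b1 b2 b3
      apply Complex.ext
      · rw [Complex.zero_re]; linarith
      · rw [Complex.zero_im]; linarith
    rw [b6, norm_zero] at b5
    exact zero_ne_one b5
  · have a0 : ∀ᵐ w ∂(nu.prod nu), 0 < (ψ w).re :=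
      mem_ae_iff.2 ((prob_compl_eq_zero_iff mB).2 h1)
    have a1 := tr (-1) (by simp) (fun x => 0 < x) a0
    obtain ⟨w, b0, b1⟩ := (a0.and a1).exists
    simp only [neg_mul, one_mul, Complex.neg_re] at b1
    linarith

end Triangle
end Vale.Agent.P099
end
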