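import Vale.Agent.P099.Defs

open MeasureTheory Set Filter Topology

namespace Vale.Agent.P099

namespace Triangle

variable (T : Triangle) {S : Type}

/-- A billiard particle with an internal state in `S`: `γ t = ((position, direction), state)`.
Inside the table the motion is straight at unit speed and the state is constant; at the open side
`i` the direction is reflected and the state `a` becomes `σ i a`. -/
def IsSkewTrajectory (σ : Fin 3 → S → S) (γ : ℝ → (ℂ × ℂ) × S) : Prop :=
  ∀ t, ((γ t).1.1 ∈ T.table ∧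
      ∀ᶠ s in 𝓝 t, γ s = (((γ t).1.1 + (s - t) • (γ t).1.2, (γ t).1.2), (γ t).2)) ∨
    ∃ i u a, (γ t).1.1 ∈ T.side i ∧
      (∀ᶠ s in 𝓝[<] t, γ s = (((γ t).1.1 + (s - t) • u, u), a)) ∧
      (∀ᶠ s in 𝓝[>] t, γ s = (((γ t).1.1 + (s - t) • T.refl i u, T.refl i u), σ i a))

/-- `Φ` is the extended billiard flow: `μ × n` almost every point moves along such a trajectory. -/
def IsSkewFlow [MeasurableSpace S] (n : Measure S) (σ : Fin 3 → S → S)
    (Φ : ℝ → (ℂ × ℂ) × S → (ℂ × ℂ) × S) : Prop :=
  ∀ᵐ p ∂(T.mu.prod n), Φ 0 p = p ∧ T.IsSkewTrajectory σ (fun t => Φ t p)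

/-- The three maps `(direction, state) ↦ (refl i direction, σ i state)` act ergodically. -/
def WallErgodic [MeasurableSpace S] (n : Measure S) (σ : Fin 3 → S → S) : Prop :=
  ∀ B : Set (ℂ × S), MeasurableSet B →
    (∀ i, (nu.prod n) (symmDiff ((fun w => (T.refl i w.1, σ i w.2)) ⁻¹' B) B) = 0) →
    (nu.prod n) B = 0 ∨ (nu.prod n) B = 1

end Triangle

/-- three involutions which preserve the measure `n` -/
structure WallMaps {S : Type} [MeasurableSpace S] (n : Measure S) (σ : Fin 3 → S → S) : Prop where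
  preserving : ∀ i, MeasurePreserving (σ i) n n
  invol : ∀ i a, σ i (σ i a) = a

end Vale.Agent.P099
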