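import Vale.Agent.N099.Traj
attribute [-instance] ProperSMul.toContinuousSMul IsTopologicalTorsor.toContinuousSMul IdemSemiring.toCanonicallyOrderedAdd IdemSemiring.toMulLeftMono IdemSemiring.toMulRightMono AddQuantale.instAddLeftMono AddQuantale.instAddRightMono Quantale.instMulLeftMono Quantale.instMulRightMono FiniteDimensional.rclike_to_real IsScalarTower.complexToReal FiniteDimensional.complexToReal
set_option linter.all false

section
open MeasureTheory Set Filter Topology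
namespace Vale.Agent.P099

namespace Triangle

variable {T : Triangle} {S : Type} {G : Invo S}

/-- measurable version of the copy after `n` collisions -/
noncomputable def pmmK (T : Triangle) (G : Invo S) : ℕ → (ℂ × ℂ) × S → S
  | 0, z => z.2
  | n + 1, z => G.σ (T.exm (T.hm^[n] z.1)) (pmmK T G n z)

lemma Good.pmmK_eq {s : ℂ × ℂ} (h : T.Good s) (a : S) (n : ℕ) :
    T.pmmK G n (s, a) = T.pmK G s n a := by
  induction n with
  | zero => rfl
  | succ n ih =>
    change G.σ (T.exm (T.hm^[n] s)) (T.pmmK G n (s, a)) = G.σ (T.ex (T.sq s n)) (T.pmK G s n a)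
    rw [ih, h.sq_eq_iterate, (h.sq n).exm_eq]

variable [MeasurableSpace S]

lemma measurable_pmmK (hm : ∀ i, Measurable (G.σ i)) (n : ℕ) : Measurable (T.pmmK G n) := by
  induction n with
  | zero => exact measurable_snd
  | succ n ih =>
    have h1 : Measurable (fun w : Fin 3 × S => G.σ w.1 w.2) := by
      exact measurable_from_prod_countable_right fun i => hm i
    have h2 : Measurable (fun z : (ℂ × ℂ) × S => T.exm (T.hm^[n] z.1)) :=
      measurable_exm.comp ((measurable_hm.iterate n).comp measurable_fst)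
    exact h1.comp (h2.prodMk ih)

lemma exists_measurable_fwK (T : Triangle) (G : Invo S) (hm : ∀ i, Measurable (G.σ i)) :
    ∃ F : ℝ × ((ℂ × ℂ) × S) → (ℂ × ℂ) × S, Measurable F ∧
      ∀ s a t, T.Good s → 0 ≤ t → F (t, (s, a)) = T.fwK G s a t := by
  classical
  let p : ℕ → ℝ × ((ℂ × ℂ) × S) → Prop := fun n z =>
    z.1 < T.tm' (n + 1) z.2.1 ∨ ∀ m, T.tm' (m + 1) z.2.1 ≤ z.1
  let f : ℕ → ℝ × ((ℂ × ℂ) × S) → (ℂ × ℂ) × S := fun n z =>
    (((T.hm^[n] z.2.1).1 + (z.1 - T.tm' n z.2.1) • (T.hm^[n] z.2.1).2, (T.hm^[n] z.2.1).2),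
      T.pmmK G n z.2)
  have m21 : Measurable (fun z : ℝ × ((ℂ × ℂ) × S) => z.2.1) := measurable_fst.comp measurable_snd
  have hp : ∀ n, MeasurableSet {z | p n z} := by
    intro n
    have h1 : MeasurableSet {z : ℝ × ((ℂ × ℂ) × S) | z.1 < T.tm' (n + 1) z.2.1} :=
      measurableSet_lt measurable_fst ((measurable_tm' _).comp m21)
    have h2 : MeasurableSet {z : ℝ × ((ℂ × ℂ) × S) | ∀ m, T.tm' (m + 1) z.2.1 ≤ z.1} := by
      have : {z : ℝ × ((ℂ × ℂ) × S) | ∀ m, T.tm' (m + 1) z.2.1 ≤ z.1} =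
          ⋂ m, {z : ℝ × ((ℂ × ℂ) × S) | T.tm' (m + 1) z.2.1 ≤ z.1} := by
        ext z; simp only [mem_ofPred_eq, mem_iInter]
      rw [this]
      exact MeasurableSet.iInter fun m =>
        measurableSet_le ((measurable_tm' _).comp m21) measurable_fst
    exact h1.union h2
  have hf : ∀ n, Measurable (f n) := by
    intro n
    have h1 : Measurable (fun z : ℝ × ((ℂ × ℂ) × S) => T.hm^[n] z.2.1) :=
      (measurable_hm.iterate n).comp m21
    have h2 : Measurable (fun z : ℝ × ((ℂ × ℂ) × S) => T.tm' n z.2.1) :=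
      (measurable_tm' n).comp m21
    exact ((h1.fst.add ((measurable_fst.sub h2).smul h1.snd)).prodMk h1.snd).prodMk
      ((measurable_pmmK hm n).comp measurable_snd)
  have hex : ∀ z, ∃ n, p n z := by
    intro z
    by_cases h : ∃ m, z.1 < T.tm' (m + 1) z.2.1
    · obtain ⟨m, hm⟩ := h
      exact ⟨m, Or.inl hm⟩
    · refine ⟨0, Or.inr ?_⟩
      intro m
      by_contra hm
      exact h ⟨m, not_le.1 hm⟩
  refine ⟨_, Measurable.find hf hp hex, ?_⟩
  intro s a t hs ht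
  obtain ⟨n, h1, h2⟩ := hs.exists_Ico ht
  have hfind : Nat.find (hex (t, (s, a))) = n := by
    rw [Nat.find_eq_iff]
    constructor
    · left
      change t < T.tm' (n + 1) s
      rw [hs.tm'_eq]
      exact h2
    · intro m hm hpm
      rcases hpm with h3 | h3
      · change t < T.tm' (m + 1) s at h3
        rw [hs.tm'_eq] at h3
        have h4 : T.tt s (m + 1) ≤ T.tt s n := hs.tt_strictMono.monotone (by omega)
        linarith only [h1, h3, h4]
      · have h4 : T.tm' (n + 1) s ≤ t := h3 n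
        rw [hs.tm'_eq] at h4
        linarith only [h2, h4]
  change f (Nat.find (hex (t, (s, a)))) (t, (s, a)) = _
  rw [hfind, hs.fwK_eq a h1 h2]
  change (((T.hm^[n] s).1 + (t - T.tm' n s) • (T.hm^[n] s).2, (T.hm^[n] s).2), T.pmmK G n (s, a)) = _
  rw [hs.sq_eq_iterate, hs.tm'_eq, hs.pmmK_eq]

lemma measurable_flipK : Measurable (flipT : (ℂ × ℂ) × S → (ℂ × ℂ) × S) :=
  (measurable_flip.comp measurable_fst).prodMk measurable_snd

/-- There is a measurable flow which agrees with `trajK` over a measurable conull set of good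
states. -/
lemma exists_measurable_flowK (T : Triangle) (G : Invo S) (hm : ∀ i, Measurable (G.σ i)) :
    ∃ (Gd : Set (ℂ × ℂ)) (Ψ : ℝ → (ℂ × ℂ) × S → (ℂ × ℂ) × S),
    MeasurableSet Gd ∧ (∀ᵐ p ∂T.mu, p ∈ Gd) ∧
    (∀ p ∈ Gd, p.1 ∈ T.table ∧ T.Good p ∧ T.Good (flip p)) ∧
    Measurable (fun w : ℝ × ((ℂ × ℂ) × S) => Ψ w.1 w.2) ∧
    (∀ p ∈ Gd, ∀ a t, Ψ t (p, a) = T.trajK G t (p, a)) := by
  classical
  have hgood : ∀ᵐ p ∂T.mu, p.1 ∈ T.table ∧ T.Good p ∧ T.Good (flip p) := by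
    rw [T.ae_mu_iff]; exact T.ae_good
  obtain ⟨Gd, hG, hGm, hGp⟩ := hgood.exists_measurable_mem
  obtain ⟨F, hF, hFe⟩ := exists_measurable_fwK T G hm
  refine ⟨Gd, fun t z => if z.1 ∈ Gd then (if 0 ≤ t then F (t, z) else flipT (F (-t, flipT z)))
    else z, hGm, hG, hGp, ?_, ?_⟩
  · refine Measurable.ite (hGm.preimage (measurable_fst.comp measurable_snd)) ?_ measurable_snd
    refine Measurable.ite (measurableSet_le measurable_const measurable_fst) ?_ ?_
    · exact hF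
    · exact measurable_flipK.comp (hF.comp (measurable_fst.neg.prodMk
        (measurable_flipK.comp measurable_snd)))
  · intro p hp a t
    obtain ⟨h1, h2, h3⟩ := hGp p hp
    simp only [if_pos hp, trajK]
    split_ifs with ht
    · exact hFe p a t h2 ht
    · change flipT (F (-t, (flip p, a))) = _
      rw [hFe (flip p) a (-t) h3 (by linarith only [ht])]

lemma mp_pmK {n : Measure S} (hmp : ∀ i, MeasurePreserving (G.σ i) n n) (s : ℂ × ℂ) (k : ℕ) :
    MeasurePreserving (T.pmK G s k) n n := by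
  induction k with
  | zero => exact MeasurePreserving.id n
  | succ k ih => exact (hmp _).comp ih

lemma mp_trajK_snd {n : Measure S} (hmp : ∀ i, MeasurePreserving (G.σ i) n n) (t : ℝ)
    (p : ℂ × ℂ) : MeasurePreserving (fun a : S => (T.trajK G t (p, a)).2) n n := by
  by_cases ht : 0 ≤ t
  · have : (fun a : S => (T.trajK G t (p, a)).2) = T.pmK G p (T.idx p t) := by
      funext a
      rw [trajK, if_pos ht]
      rfl
    rw [this]
    exact mp_pmK hmp _ _
  · have : (fun a : S => (T.trajK G t (p, a)).2) = T.pmK G (flip p) (T.idx (flip p) (-t)) := by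
      funext a
      rw [trajK, if_neg ht]
      rfl
    rw [this]
    exact mp_pmK hmp _ _

lemma isBilliardFlow_traj (T : Triangle) : T.IsBilliardFlow T.traj := by
  have hg : ∀ᵐ p ∂T.mu, p.1 ∈ T.table ∧ T.Good p ∧ T.Good (flip p) := by
    rw [T.ae_mu_iff]; exact T.ae_good
  filter_upwards [hg] with p hp
  refine ⟨?_, isTrajectory_traj hp.1 hp.2.1 hp.2.2⟩
  rw [traj, if_pos le_rfl, hp.2.1.fw_small le_rfl (hp.2.1.tau_pos 0)]; simp

/-- The extended flow: a measurable, measure preserving version; uniqueness. -/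
theorem exists_good_flowK (T : Triangle) (G : Invo S) (n : Measure S) [SFinite n]
    (hmp0 : ∀ i, MeasurePreserving (G.σ i) n n) :
    ∃ Ψ : ℝ → (ℂ × ℂ) × S → (ℂ × ℂ) × S, PFlow (T.mu.prod n) Ψ ∧ T.IsSkewFlow n G.σ Ψ ∧
      (∀ Φ : ℝ → (ℂ × ℂ) × S → (ℂ × ℂ) × S, T.IsSkewFlow n G.σ Φ →
        ∀ t, Φ t =ᵐ[T.mu.prod n] Ψ t) ∧
      ∀ᵐ z ∂(T.mu.prod n), z.1.1 ∈ T.table ∧ T.Good z.1 ∧ ∀ t, Ψ t z = T.trajK G t z := by
  obtain ⟨Gd, Ψ, hGm, hG, hGp, hΨm, hΨ⟩ :=
    exists_measurable_flowK T G (fun i => (hmp0 i).measurable)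
  have hprob : IsProbabilityMeasure T.mu := T.isProbabilityMeasure_mu
  have hΨtm : ∀ t, Measurable (Ψ t) := fun t =>
    hΨm.comp (measurable_const.prodMk measurable_id)
  obtain ⟨Ψ0, hΨ0, _, hu⟩ := T.exists_good_flow
  have hb0 : ∀ t, T.traj t =ᵐ[T.mu] Ψ0 t := hu _ T.isBilliardFlow_traj
  have hGz : ∀ᵐ z ∂(T.mu.prod n), z.1 ∈ Gd :=
    Measure.quasiMeasurePreserving_fst.ae hG
  -- measure preservation
  have hmp : ∀ t, MeasurePreserving (Ψ t) (T.mu.prod n) (T.mu.prod n) := by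
    intro t
    have h1 : MeasurePreserving (fun z : (ℂ × ℂ) × S => (Ψ0 t z.1, (Ψ t (z.1, z.2)).2))
        (T.mu.prod n) (T.mu.prod n) := by
      refine (hΨ0.mp t).skew_product (g := fun p a => (Ψ t (p, a)).2) ?_ ?_
      · exact measurable_snd.comp (hΨtm t)
      · filter_upwards [hG] with p hp
        have : (fun a => (Ψ t (p, a)).2) = fun a : S => (T.trajK G t (p, a)).2 := by
          funext a
          rw [hΨ p hp]
        rw [this]
        exact (mp_trajK_snd hmp0 t p).map_eq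
    refine ⟨hΨtm t, ?_⟩
    have h0 : ∀ᵐ z ∂(T.mu.prod n), T.traj t z.1 = Ψ0 t z.1 :=
      Measure.quasiMeasurePreserving_fst.ae (hb0 t)
    have h2 : Ψ t =ᵐ[T.mu.prod n] fun z : (ℂ × ℂ) × S => (Ψ0 t z.1, (Ψ t (z.1, z.2)).2) := by
      filter_upwards [hGz, h0] with z hz hz0
      refine Prod.ext ?_ rfl
      have e1 : Ψ t z = T.trajK G t z := hΨ z.1 hz z.2 t
      show (Ψ t z).1 = Ψ0 t z.1
      rw [e1, trajK_fst, hz0]
    rw [Measure.map_congr h2]
    exact h1.map_eq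
  have hmemT : ∀ᵐ z ∂(T.mu.prod n), z.1.1 ∈ T.table :=
    Measure.quasiMeasurePreserving_fst.ae T.ae_mem_table
  have htab : ∀ t, ∀ᵐ z ∂(T.mu.prod n), (Ψ t z).1.1 ∈ T.table := fun t =>
    (hmp t).quasiMeasurePreserving.ae hmemT
  have htraj : ∀ z : (ℂ × ℂ) × S, z.1 ∈ Gd → T.IsSkewTrajectory G.σ (fun t => Ψ t z) := by
    intro z hz
    obtain ⟨h1, h2, h3⟩ := hGp _ hz
    have h4 : (fun t => Ψ t z) = fun t => T.trajK G t z := funext fun t => hΨ z.1 hz z.2 t
    rw [h4]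
    exact isSkewTrajectory_trajK h1 h2 h3
  have hzero : ∀ z : (ℂ × ℂ) × S, z.1 ∈ Gd → Ψ 0 z = z := by
    intro z hz
    have e1 : Ψ 0 z = T.trajK G 0 z := hΨ z.1 hz z.2 0
    rw [e1, trajK_zero (hGp _ hz).2.1]
  refine ⟨Ψ, ⟨hΨm, hmp, ?_, ?_⟩, ?_, ?_, ?_⟩
  · intro s t
    have h1 : ∀ᵐ z ∂(T.mu.prod n), (Ψ t z).1 ∈ Gd := (hmp t).quasiMeasurePreserving.ae hGz
    have h2 : ∀ᵐ z ∂(T.mu.prod n), (Ψ s (Ψ t z)).1.1 ∈ T.table :=
      (hmp t).quasiMeasurePreserving.ae (htab s)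
    filter_upwards [hGz, h1, h2] with z hz hq h3
    have h4 := IsSkewTrajectory.shift (G := G) (htraj z hz) t
    have h5 := htraj _ hq
    have h6 : (Ψ 0 (Ψ t z)).1.1 ∈ T.table := by rw [hzero _ hq]; exact (hGp _ hq).1
    have h7 : Ψ 0 (Ψ t z) = Ψ (0 + t) z := by rw [hzero _ hq, zero_add]
    exact (IsSkewTrajectory.same (G := G) h5 h4 (a := 0) h6 h7 (t := s) h3).symm
  · filter_upwards [hGz] with z hz
    exact hzero z hz
  · filter_upwards [hGz] with z hz
    exact ⟨hzero z hz, htraj z hz⟩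
  · intro Φ hΦ t
    filter_upwards [hΦ, hGz, htab t] with z h1 hz h3
    have h6 : (Ψ 0 z).1.1 ∈ T.table := by rw [hzero _ hz]; exact (hGp _ hz).1
    have h7 : Ψ 0 z = Φ 0 z := by rw [hzero _ hz, h1.1]
    exact (IsSkewTrajectory.same (G := G) (htraj z hz) h1.2 (a := 0) h6 h7 (t := t) h3).symm
  · filter_upwards [hGz] with z hz
    exact ⟨(hGp _ hz).1, (hGp _ hz).2.1, fun t => hΨ z.1 hz z.2 t⟩

/-! ### words -/

omit [MeasurableSpace S] in
/-- the state after a word of reflections -/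
def GK {S : Type} (G : Invo S) : List (Fin 3) → S → S
  | [], a => a
  | i :: w, a => GK G w (G.σ i a)

omit [MeasurableSpace S] in
lemma GK_append (w : List (Fin 3)) (i : Fin 3) (a : S) :
    GK G (w ++ [i]) a = G.σ i (GK G w a) := by
  induction w generalizing a with
  | nil => rfl
  | cons j w ih => exact ih _

omit [MeasurableSpace S] in
lemma exists_wordK (s : ℂ × ℂ) (a : S) (n : ℕ) : ∃ w, (T.sq s n).2 = T.GU w s.2 ∧
    T.pmK G s n a = GK G w a := by
  induction n with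
  | zero => exact ⟨[], rfl, rfl⟩
  | succ n ih =>
    obtain ⟨w, h1, h2⟩ := ih
    refine ⟨w ++ [T.ex (T.sq s n)], ?_, ?_⟩
    · rw [sq_succ_snd, GU_append, h1]
    · rw [GK_append, ← h2]; rfl

omit [MeasurableSpace S] in
lemma exists_word_trajK (z : (ℂ × ℂ) × S) (t : ℝ) :
    ∃ w, (T.trajK G t z).1.2 = T.GU w z.1.2 ∧ (T.trajK G t z).2 = GK G w z.2 := by
  rcases le_or_gt 0 t with ht | ht
  · obtain ⟨w, h1, h2⟩ := exists_wordK (T := T) (G := G) z.1 z.2 (T.idx z.1 t)
    refine ⟨w, ?_, ?_⟩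
    · rw [trajK, if_pos ht]; exact h1
    · rw [trajK, if_pos ht]; exact h2
  · obtain ⟨w, h1, h2⟩ := exists_wordK (T := T) (G := G) (flip z.1) z.2 (T.idx (flip z.1) (-t))
    refine ⟨w, ?_, ?_⟩
    · rw [trajK, if_neg (not_le.2 ht)]
      show -(T.sq (flip z.1) (T.idx (flip z.1) (-t))).2 = _
      rw [h1]
      show -(T.GU w (-z.1.2)) = _
      rw [GU_neg, neg_neg]
    · rw [trajK, if_neg (not_le.2 ht)]; exact h2

end Triangle
end Vale.Agent.P099
end
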