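import Vale.Agent.N099.Circ
import Mathlib.Dynamics.Ergodic.Action.Basic
import Mathlib.SetTheory.Cardinal.Free
attribute [-instance] ProperSMul.toContinuousSMul IsTopologicalTorsor.toContinuousSMul IdemSemiring.toCanonicallyOrderedAdd IdemSemiring.toMulLeftMono IdemSemiring.toMulRightMono AddQuantale.instAddLeftMono AddQuantale.instAddRightMono Quantale.instMulLeftMono Quantale.instMulRightMono FiniteDimensional.rclike_to_real IsScalarTower.complexToReal FiniteDimensional.complexToReal
set_option linter.all false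

/-!
# Extensions by a group action: a sufficient condition for ergodicity
-/

section
open MeasureTheory Set Filter Topology ComplexConjugate
namespace Vale.Agent.P099

open WM4

variable {S : Type} [MeasurableSpace S] {n : Measure S} [IsProbabilityMeasure n]
  {G : Type} [Group G] [MulAction G S] [MeasurableConstSMul G S] [SMulInvariantMeasure G S n]

/-- the set `B` is invariant under the rotation `c` with the group element `x` -/
def InvBy (n : Measure S) (B : Set (ℂ × S)) (c : ℂ) (x : G) : Prop :=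
  ‖c‖ = 1 ∧ ∀ᵐ w ∂(nu.prod n), (c * w.1, x • w.2) ∈ B ↔ w ∈ B

lemma mp_act {c : ℂ} (hc : ‖c‖ = 1) (x : G) :
    MeasurePreserving (fun w : ℂ × S => (c * w.1, x • w.2)) (nu.prod n) (nu.prod n) :=
  (measurePreserving_mul hc).prod (measurePreserving_smul x n)

lemma InvBy.mul {B : Set (ℂ × S)} {c d : ℂ} {x y : G} (h1 : InvBy n B c x) (h2 : InvBy n B d y) :
    InvBy n B (c * d) (x * y) := by
  refine ⟨by rw [norm_mul, h1.1, h2.1, mul_one], ?_⟩
  filter_upwards [(mp_act h2.1 y).quasiMeasurePreserving.ae h1.2, h2.2] with w a1 a2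
  rw [mul_assoc, mul_smul]
  exact a1.trans a2

lemma InvBy.inv {B : Set (ℂ × S)} {c : ℂ} {x : G} (h1 : InvBy n B c x) : InvBy n B c⁻¹ x⁻¹ := by
  have hc : ‖c⁻¹‖ = 1 := by rw [norm_inv, h1.1, inv_one]
  have hc0 : c ≠ 0 := by
    intro h
    have := h1.1
    rw [h, norm_zero] at this
    exact zero_ne_one this
  refine ⟨hc, ?_⟩
  filter_upwards [(mp_act hc x⁻¹).quasiMeasurePreserving.ae h1.2] with w a1
  have a2 : (c * (c⁻¹ * w.1), x • x⁻¹ • w.2) ∈ B ↔ (c⁻¹ * w.1, x⁻¹ • w.2) ∈ B := a1
  rw [mul_inv_cancel_left₀ hc0, smul_inv_smul] at a2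
  exact a2.symm

lemma wallMaps_smul {g : Fin 3 → G} (hg : ∀ i, g i * g i = 1) :
    WallMaps n (fun i a => g i • a) :=
  ⟨fun i => measurePreserving_smul (g i) n, fun i a => by
    show g i • g i • a = a
    rw [← mul_smul, hg, one_smul]⟩

namespace Triangle

variable (T : Triangle)

theorem wallErgodic_of_commutator (hT : T.IsIrrational) (g : Fin 3 → G) {H : Subgroup G}
    (hH : H = Subgroup.closure {x | ∃ i j, x = g i * g j}) (hE : ErgodicSMul (⁅H, H⁆ : Subgroup G) S n) :
    T.WallErgodic n (fun i a => g i • a) := by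
  intro B hB hinv
  have hr : ∀ i, ∀ᵐ w ∂(nu.prod n), (T.refl i w.1, g i • w.2) ∈ B ↔ w ∈ B := fun i =>
    ae_iff_of_symmDiff (hinv i)
  let K : Subgroup G :=
    { carrier := {x | ∃ c, InvBy n B c x}
      one_mem' := ⟨1, norm_one, ae_of_all _ fun w => by rw [one_mul, one_smul]⟩
      mul_mem' := fun ⟨c, hc⟩ ⟨d, hd⟩ => ⟨c * d, hc.mul hd⟩
      inv_mem' := fun ⟨c, hc⟩ => ⟨c⁻¹, hc.inv⟩ }
  have hHK : H ≤ K := by
    rw [hH, Subgroup.closure_le]
    rintro x ⟨i, j, rfl⟩
    refine ⟨T.refl i 1 * conj (T.refl j 1), ?_, ?_⟩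
    · rw [norm_mul, Complex.norm_conj, T.norm_refl_one, T.norm_refl_one, mul_one]
    · have hm : MeasurePreserving (fun w : ℂ × S => (T.refl j w.1, g j • w.2)) (nu.prod n)
          (nu.prod n) := (T.measurePreserving_refl j).prod (measurePreserving_smul (g j) n)
      filter_upwards [hm.quasiMeasurePreserving.ae (hr i), hr j] with w a1 a2
      have e : T.refl i 1 * conj (T.refl j 1) * w.1 = T.refl i (T.refl j w.1) := by
        rw [T.refl_eq_one_mul i (T.refl j w.1), T.refl_eq_one_mul j w.1, map_mul, Complex.conj_conj,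
          mul_assoc]
      rw [e, mul_smul]
      exact a1.trans a2
  let K0 : Subgroup G :=
    { carrier := {x | InvBy n B 1 x}
      one_mem' := ⟨norm_one, ae_of_all _ fun w => by rw [one_mul, one_smul]⟩
      mul_mem' := fun {a b} ha hb => by
        have := InvBy.mul ha hb
        rwa [one_mul] at this
      inv_mem' := fun {a} ha => by
        have := InvBy.inv ha
        rwa [inv_one] at this }
  have hK0 : ⁅H, H⁆ ≤ K0 := by
    rw [Subgroup.commutator_le]
    intro x hx y hy
    obtain ⟨c, hc⟩ := hHK hx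
    obtain ⟨d, hd⟩ := hHK hy
    have h1 := ((hc.mul hd).mul hc.inv).mul hd.inv
    have hc0 : c ≠ 0 := norm_ne_zero_iff.1 (by rw [hc.1]; exact one_ne_zero)
    have hd0 : d ≠ 0 := norm_ne_zero_iff.1 (by rw [hd.1]; exact one_ne_zero)
    have e : c * d * c⁻¹ * d⁻¹ = 1 := by field_simp
    rw [e] at h1
    exact h1
  have hcount : Countable (⁅H, H⁆ : Subgroup G) := by
    have h1 : H ≤ (FreeGroup.lift g).range := by
      rw [hH, Subgroup.closure_le]
      rintro x ⟨i, j, rfl⟩
      exact ⟨FreeGroup.of i * FreeGroup.of j, by simp⟩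
    have h2 : ⁅H, H⁆ ≤ (FreeGroup.lift g).range := by
      rw [Subgroup.commutator_le]
      intro x hx y hy
      exact mul_mem (mul_mem (mul_mem (h1 hx) (h1 hy)) (inv_mem (h1 hx))) (inv_mem (h1 hy))
    exact ((countable_range (FreeGroup.lift g)).mono h2).to_subtype
  have h1 : ∀ᵐ u ∂nu, ∀ x : (⁅H, H⁆ : Subgroup G), ∀ᵐ s ∂n, (u, (x : G) • s) ∈ B ↔ (u, s) ∈ B := by
    rw [ae_all_iff]
    intro x
    filter_upwards [Measure.ae_ae_of_ae_prod (hK0 x.2).2] with u hu
    simpa only [one_mul] using hu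
  have h2 : ∀ᵐ u ∂nu, n (Prod.mk u ⁻¹' B) = 0 ∨ n (Prod.mk u ⁻¹' B) = 1 := by
    filter_upwards [h1] with u hu
    have mu : MeasurableSet (Prod.mk u ⁻¹' B) := measurable_prodMk_left hB
    have h3 := hE.aeconst_of_forall_preimage_smul_ae_eq mu fun x => by
      filter_upwards [hu x] with s hs
      exact propext hs
    rcases eventuallyConst_set.1 h3 with h4 | h4
    · exact Or.inr ((prob_compl_eq_zero_iff mu).1 (mem_ae_iff.1 h4))
    · exact Or.inl (measure_eq_zero_iff_ae_notMem.2 h4)
  have mD : MeasurableSet {u | n (Prod.mk u ⁻¹' B) = 1} :=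
    measurableSet_eq_fun (measurable_measure_prodMk_left hB) measurable_const
  have h3 : (nu.prod n) B = nu {u | n (Prod.mk u ⁻¹' B) = 1} := by
    rw [Measure.prod_apply hB, ← lintegral_indicator_one mD]
    apply lintegral_congr_ae
    filter_upwards [h2] with y hy
    by_cases h : n (Prod.mk y ⁻¹' B) = 1
    · rw [indicator_of_mem (by exact h), h]; rfl
    · rw [indicator_of_notMem (by exact h), hy.resolve_right h]
  rw [h3]
  obtain ⟨c, hc⟩ := T.const_of_refl_invariant hT
    (f := {u | n (Prod.mk u ⁻¹' B) = 1}.indicator fun _ => (1:ℝ)) (measurable_const.indicator mD)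
    (C := 1) (fun u => by
      by_cases h : u ∈ {u | n (Prod.mk u ⁻¹' B) = 1}
      · rw [indicator_of_mem h, abs_one]
      · rw [indicator_of_notMem h, abs_zero]; exact zero_le_one) (fun i => by
      refine indicator_inv (symmDiff_null_of_ae ?_)
      filter_upwards [Measure.ae_ae_of_ae_prod (hr i)] with u hu
      have e : n (Prod.mk (T.refl i u) ⁻¹' B) = n (Prod.mk u ⁻¹' B) := by
        rw [← (measurePreserving_smul (g i) n).measure_preimage
          (measurable_prodMk_left hB).nullMeasurableSet]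
        apply measure_congr
        filter_upwards [hu] with s hs
        exact propext hs
      show n (Prod.mk (T.refl i u) ⁻¹' B) = 1 ↔ n (Prod.mk u ⁻¹' B) = 1
      rw [e])
  exact zero_one_of_indicator mD hc

end Triangle
end Vale.Agent.P099
end
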