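import Vale.Agent.N099.Inv
import Mathlib.Probability.ProductMeasure
attribute [-instance] ProperSMul.toContinuousSMul IsTopologicalTorsor.toContinuousSMul IdemSemiring.toCanonicallyOrderedAdd IdemSemiring.toMulLeftMono IdemSemiring.toMulRightMono AddQuantale.instAddLeftMono AddQuantale.instAddRightMono Quantale.instMulLeftMono Quantale.instMulRightMono FiniteDimensional.rclike_to_real IsScalarTower.complexToReal FiniteDimensional.complexToReal
set_option linter.all false

/-!
# Infinite surfaces: no invariant set of positive finite measure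

A finite set of copies is detected by a cylinder of the Bernoulli space over the set of copies.
-/

section
open MeasureTheory Set Filter Topology
open scoped ENNReal
namespace Vale.Agent.P099

open WM4

/-- the fair coin -/
noncomputable def coin : Measure Bool := ProbabilityTheory.uniformOn univ

instance : IsProbabilityMeasure coin := isProb_unif Bool

lemma coin_ne (b : Bool) : coin {b} ≠ 0 := by
  rw [coin, Ne, ProbabilityTheory.uniformOn_eq_zero_iff finite_univ]
  simp

/-- the Bernoulli measure -/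
noncomputable def bern (S : Type) : Measure (S → Bool) := Measure.infinitePi fun _ : S => coin

instance (S : Type) : IsProbabilityMeasure (bern S) := by
  unfold bern; infer_instance

variable {S : Type}

lemma bern_mp {π : S → S} (hπ : ∀ s, π (π s) = s) :
    MeasurePreserving (fun (ω : S → Bool) => ω ∘ π) (bern S) (bern S) := by
  let e : S ≃ S := ⟨π, π, hπ, hπ⟩
  have h1 := Measure.infinitePi_map_piCongrLeft (fun _ : S => coin) e
  have h2 : (fun (ω : S → Bool) => ω ∘ π) = MeasurableEquiv.piCongrLeft (fun _ : S => Bool) e := by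
    funext ω s
    have h3 := MeasurableEquiv.piCongrLeft_apply_apply (β := fun _ : S => Bool) e ω (π s)
    have h4 : e (π s) = s := hπ s
    rw [h4] at h3
    exact h3.symm
  rw [h2]
  exact ⟨(MeasurableEquiv.measurable _), h1⟩

lemma bern_cyl {E : Set S} (hE : E.Finite) (s : S) :
    bern S {ω | (∀ a ∈ E, ω a = true) ∧ ω s = false} = 0 ↔ s ∈ E := by
  classical
  constructor
  · intro h
    by_contra hs
    have h1 : {ω : S → Bool | (∀ a ∈ E, ω a = true) ∧ ω s = false} =
        Set.pi ((insert s hE.toFinset : Finset S) : Set S) (fun a => {decide (a ∈ E)}) := by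
      ext ω
      simp only [mem_ofPred_eq, Set.mem_pi, Finset.coe_insert, mem_insert_iff, Finite.coe_toFinset,
        mem_singleton_iff]
      constructor
      · rintro ⟨h2, h3⟩ a (rfl | ha)
        · rw [h3]; simp [hs]
        · rw [h2 a ha]; simp [ha]
      · intro h2
        refine ⟨fun a ha => ?_, ?_⟩
        · rw [h2 a (Or.inr ha)]; simp [ha]
        · rw [h2 s (Or.inl rfl)]; simp [hs]
    rw [h1, bern, Measure.infinitePi_pi _ (fun _ _ => measurableSet_singleton _)] at h
    obtain ⟨a, -, ha⟩ := Finset.prod_eq_zero_iff.1 h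
    exact coin_ne _ ha
  · intro hs
    have : {ω : S → Bool | (∀ a ∈ E, ω a = true) ∧ ω s = false} = ∅ := by
      ext ω
      simp only [mem_ofPred_eq, mem_empty_iff_false, iff_false, not_and]
      intro h1 h2
      rw [h1 s hs] at h2
      exact absurd h2 (by decide)
    rw [this, measure_empty]

variable [MeasurableSpace S] [MeasurableSingletonClass S] [Countable S]

lemma wallMaps_count (G : Gluing S) : WallMaps (Measure.count : Measure S) G.σ := by
  refine ⟨fun i => ⟨Measurable.of_discrete, ?_⟩, G.invol⟩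
  ext A hA
  rw [Measure.map_apply Measurable.of_discrete hA]
  have h1 : G.σ i ⁻¹' A = G.σ i '' A := by
    ext s
    constructor
    · intro hs
      exact ⟨G.σ i s, hs, G.invol i s⟩
    · rintro ⟨a, ha, rfl⟩
      show G.σ i (G.σ i a) ∈ A
      rw [G.invol]; exact ha
  rw [h1, Measure.count_injective_image (G.inj i)]

lemma pflow_triv {Ω : Type} [MeasurableSpace Ω] (m : Measure Ω) :
    PFlow m (fun (_ : ℝ) (q : Ω) => q) where
  meas := measurable_snd
  mp := fun _ => MeasurePreserving.id _
  add := fun _ _ => ae_of_all _ fun _ => rfl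
  zero := ae_of_all _ fun _ => rfl

namespace Triangle

variable (T : Triangle)

/-- an invariant set of finite measure only depends on the direction and on the copy -/
theorem exists_dir_set (G : Gluing S) {Φ : ℝ → (ℂ × ℂ) × S → (ℂ × ℂ) × S}
    (hb : T.IsSkewFlow Measure.count G.σ Φ) {A : Set ((ℂ × ℂ) × S)} (hA : MeasurableSet A)
    (hinv : ∀ t, (T.mu.prod Measure.count) (symmDiff (Φ t ⁻¹' A) A) = 0)
    (hfin : (T.mu.prod Measure.count) A ≠ ∞) :
    ∃ B : S → Set ℂ, (∀ s, MeasurableSet (B s)) ∧
      (∀ i s, ∀ᵐ u ∂nu, T.refl i u ∈ B (G.σ i s) ↔ u ∈ B s) ∧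
      ∀ s, ∀ᵐ p ∂T.mu, (p, s) ∈ A ↔ p.2 ∈ B s := by
  classical
  have hW := wallMaps_count G
  obtain ⟨Θ, -, -, hu, hgood⟩ := exists_good_flowK T hW.invo Measure.count hW.preserving
  have h0 : ∀ t, ∀ᵐ p ∂T.mu, ∀ s, T.Good p ∧ (T.trajK hW.invo t (p, s) ∈ A ↔ (p, s) ∈ A) := by
    intro t
    have h1 : ∀ᵐ z ∂(T.mu.prod (Measure.count : Measure S)),
        T.Good z.1 ∧ (T.trajK hW.invo t z ∈ A ↔ z ∈ A) := by
      filter_upwards [hgood, hu Φ hb t, ae_iff_of_symmDiff (hinv t)] with z a1 a2 a3
      refine ⟨a1.2.1, ?_⟩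
      rw [← a1.2.2 t, ← a2]
      exact a3
    filter_upwards [Measure.ae_ae_of_ae_prod h1] with p hp
    exact Measure.ae_count_iff.1 hp
  let D : Set ((ℂ × ℂ) × (S → Bool)) := {z | ∀ s, (z.1, s) ∈ A → z.2 s = true}
  have hD : MeasurableSet D := by
    have : D = ⋂ s, ((fun z : (ℂ × ℂ) × (S → Bool) => (z.1, s)) ⁻¹' A)ᶜ ∪
        (fun z : (ℂ × ℂ) × (S → Bool) => z.2 s) ⁻¹' {true} := by
      ext z
      simp only [D, mem_ofPred_eq, mem_iInter, mem_union, mem_compl_iff, mem_preimage,
        mem_singleton_iff]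
      exact forall_congr' fun s => imp_iff_not_or
    rw [this]
    refine MeasurableSet.iInter fun s => MeasurableSet.union ?_ ?_
    · exact ((measurable_fst.prodMk measurable_const) hA).compl
    · exact ((measurable_pi_apply s).comp measurable_snd) (measurableSet_singleton _)
  let H : ℂ → ℂ × (S → Bool) → ℝ := fun x w => D.indicator (fun _ => (1:ℝ)) ((x, w.1), w.2)
  have hH : Bdd H := by
    refine ⟨(measurable_const.indicator hD).comp (by fun_prop), 1, fun y w => ?_⟩
    simp only [H]
    by_cases h : ((y, w.1), w.2) ∈ D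
    · simp [h]
    · simp [h]
  let ς : Fin 3 → (S → Bool) → (S → Bool) := fun i ω => ω ∘ G.σ i
  have i1 : TwInv ς := ⟨fun i => (bern_mp (G.invol i)).measurable, fun i ω => by
    funext s
    show ω (G.σ i (G.σ i s)) = ω s
    rw [G.invol]⟩
  have i2 : TwMP (bern S) ς := ⟨fun i => bern_mp (G.invol i)⟩
  have i3 : TwCom (fun (_ : ℝ) (q : S → Bool) => q) ς := ⟨fun _ _ _ => rfl⟩
  have ind : ∀ {a b : (ℂ × ℂ) × (S → Bool)}, (a ∈ D ↔ b ∈ D) →
      D.indicator (fun _ => (1:ℝ)) a = D.indicator (fun _ => (1:ℝ)) b := by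
    intro a b h
    by_cases hb : b ∈ D
    · rw [indicator_of_mem hb, indicator_of_mem (h.2 hb)]
    · rw [indicator_of_notMem hb, indicator_of_notMem (fun h' => hb (h.1 h'))]
  have hF : T.FreeInv (bern S) (fun (_ : ℝ) (q : S → Bool) => q) H := by
    intro t ht
    have h1 : ∀ᵐ z ∂(T.mu.prod (bern S)), z.1.1 + t • z.1.2 ∈ T.table →
        D.indicator (fun _ => (1:ℝ)) ((z.1.1 + t • z.1.2, z.1.2), z.2) =
          D.indicator (fun _ => (1:ℝ)) z := by
      filter_upwards [Measure.quasiMeasurePreserving_fst.ae (h0 t)] with z hz hin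
      refine ind (forall_congr' fun s => ?_)
      have h2 := (hz s).2
      rw [Good.trajK_free (z := (z.1, s)) (hz s).1 ht.le hin] at h2
      exact imp_congr_left h2
    exact T.ae_prod_mu_iff.mp h1
  have hB : T.BounceInvS (bern S) ς (fun (_ : ℝ) (q : S → Bool) => q) H := by
    intro t ht i
    have h1 : ∀ᵐ z ∂(T.mu.prod (bern S)), T.E i z.1 → T.hitT i z.1 < t →
        T.R i (z.1.1 + t • z.1.2) ∈ T.table →
        D.indicator (fun _ => (1:ℝ)) ((T.R i (z.1.1 + t • z.1.2), T.refl i z.1.2), ς i z.2) =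
          D.indicator (fun _ => (1:ℝ)) z := by
      filter_upwards [Measure.quasiMeasurePreserving_fst.ae (h0 t)] with z hz hE hlt hin
      have h2 : ∀ s, ((T.R i (z.1.1 + t • z.1.2), T.refl i z.1.2), G.σ i s) ∈ A ↔ (z.1, s) ∈ A := by
        intro s
        have h2 := (hz s).2
        rw [Good.trajK_bounce (z := (z.1, s)) (hz s).1 hE hlt hin] at h2
        exact h2
      refine ind ⟨fun h s hs => ?_, fun h s hs => ?_⟩
      · have h3 : z.2 (G.σ i (G.σ i s)) = true := h (G.σ i s) ((h2 s).2 hs)
        rwa [G.invol] at h3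
      · refine h (G.σ i s) ((h2 _).1 ?_)
        rw [G.invol]
        exact hs
    exact T.ae_prod_mu_iff.mp h1
  obtain ⟨F, mF, -, rF, -, hF⟩ := T.relative_allG (pflow_triv (bern S)) hH hF hB
  have hF' : ∀ᵐ z ∂(T.mu.prod (bern S)), D.indicator (fun _ => (1:ℝ)) z = F (z.1.2, z.2) :=
    T.ae_prod_mu_iff.mpr hF
  have mC : ∀ s, MeasurableSet {w : ℂ × (S → Bool) | F w = 1 ∧ w.2 s = false} := fun s =>
    (measurableSet_eq_fun mF measurable_const).inter
      (measurableSet_eq_fun ((measurable_pi_apply s).comp measurable_snd) measurable_const)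
  refine ⟨fun s => {u | bern S {ω | F (u, ω) = 1 ∧ ω s = false} = 0}, fun s => ?_, fun i s => ?_,
    fun s => ?_⟩
  · exact measurableSet_eq_fun (measurable_measure_prodMk_left (mC s)) measurable_const
  · filter_upwards [Measure.ae_ae_of_ae_prod (rF i)] with u hu
    have h1 : bern S {ω | F (T.refl i u, ω) = 1 ∧ ω (G.σ i s) = false} =
        bern S {ω | F (u, ω) = 1 ∧ ω s = false} := by
      have m1 : MeasurableSet {ω : S → Bool | F (T.refl i u, ω) = 1 ∧ ω (G.σ i s) = false} :=
        measurable_prodMk_left (mC (G.σ i s))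
      rw [← (bern_mp (G.invol i)).measure_preimage m1.nullMeasurableSet]
      apply measure_congr
      filter_upwards [hu] with ω hω
      apply propext
      show F (T.refl i u, ς i ω) = 1 ∧ ω (G.σ i (G.σ i s)) = false ↔ F (u, ω) = 1 ∧ ω s = false
      rw [G.invol]
      exact and_congr_left fun _ => by rw [show F (T.refl i u, ς i ω) = F (u, ω) from hω]
    show bern S {ω | F (T.refl i u, ω) = 1 ∧ ω (G.σ i s) = false} = 0 ↔
      bern S {ω | F (u, ω) = 1 ∧ ω s = false} = 0
    rw [h1]
  · have h1 : ∀ᵐ p ∂T.mu, (Measure.count : Measure S) (Prod.mk p ⁻¹' A) < ∞ :=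
      Measure.ae_measure_lt_top hA hfin
    filter_upwards [h1, Measure.ae_ae_of_ae_prod hF'] with p a1 a2
    have h2 := bern_cyl (Measure.count_apply_lt_top.1 a1) s
    have h3 : bern S {ω | F (p.2, ω) = 1 ∧ ω s = false} =
        bern S {ω | (∀ a ∈ Prod.mk p ⁻¹' A, ω a = true) ∧ ω s = false} := by
      apply measure_congr
      filter_upwards [a2] with ω hω
      apply propext
      show F (p.2, ω) = 1 ∧ ω s = false ↔ (p, ω) ∈ D ∧ ω s = false
      refine and_congr_left fun _ => ?_
      rw [← show D.indicator (fun _ => (1:ℝ)) (p, ω) = F (p.2, ω) from hω]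
      by_cases h : (p, ω) ∈ D
      · simp [h]
      · simp [h]
    show (p, s) ∈ A ↔ bern S {ω | F (p.2, ω) = 1 ∧ ω s = false} = 0
    rw [h3, h2]
    rfl

/-- invariant sets of the flow of an infinite surface have measure zero or infinity -/
theorem zero_or_top [Infinite S] (G : Gluing S) {Φ : ℝ → (ℂ × ℂ) × S → (ℂ × ℂ) × S}
    (hb : T.IsSkewFlow Measure.count G.σ Φ) {A : Set ((ℂ × ℂ) × S)} (hA : MeasurableSet A)
    (hinv : ∀ t, (T.mu.prod Measure.count) (symmDiff (Φ t ⁻¹' A) A) = 0) :
    (T.mu.prod Measure.count) A = 0 ∨ (T.mu.prod Measure.count) A = ∞ := by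
  by_cases hfin : (T.mu.prod Measure.count) A = ∞
  · exact Or.inr hfin
  obtain ⟨B, mB, rB, hB⟩ := T.exists_dir_set G hb hA hinv hfin
  have h1 : ∀ i s, nu (B (G.σ i s)) = nu (B s) := by
    intro i s
    rw [← (T.measurePreserving_refl i).measure_preimage (mB _).nullMeasurableSet]
    apply measure_congr
    filter_upwards [rB i s] with u hu
    exact propext hu
  obtain ⟨s0⟩ : Nonempty S := inferInstance
  have h2 : ∀ s, nu (B s) = nu (B s0) := by
    have := G.connected {s | nu (B s) = nu (B s0)} ⟨s0, rfl⟩ fun i s hs => (h1 i s).trans hs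
    intro s
    have h3 : s ∈ {s | nu (B s) = nu (B s0)} := by rw [this]; trivial
    exact h3
  have h3 : ∀ s, T.mu ((fun p => (p, s)) ⁻¹' A) = nu (B s0) := by
    intro s
    rw [← h2 s, ← T.mp_dir0.measure_preimage (mB s).nullMeasurableSet]
    apply measure_congr
    filter_upwards [hB s] with p hp
    exact propext hp
  rw [Measure.prod_apply_symm hA] at hfin ⊢
  simp_rw [h3] at hfin ⊢
  rw [lintegral_const, Measure.count_apply_infinite infinite_univ] at hfin ⊢
  left
  by_cases h4 : nu (B s0) = 0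
  · rw [h4, zero_mul]
  · exact absurd (ENNReal.mul_top h4) hfin

end Triangle
end Vale.Agent.P099
end
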