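import Vale.Agent.N099.Key
attribute [-instance] ProperSMul.toContinuousSMul IsTopologicalTorsor.toContinuousSMul IdemSemiring.toCanonicallyOrderedAdd IdemSemiring.toMulLeftMono IdemSemiring.toMulRightMono AddQuantale.instAddLeftMono AddQuantale.instAddRightMono Quantale.instMulLeftMono Quantale.instMulRightMono FiniteDimensional.rclike_to_real IsScalarTower.complexToReal FiniteDimensional.complexToReal
set_option linter.all false

section
open MeasureTheory Set Filter Topology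
namespace Vale.Agent.P099

open WM4

variable {Ω : Type} [MeasurableSpace Ω]

/-- the relation `F (A u, π (Ψ (s u) q)) = F (u, q)` -/
def RelG (m : Measure Ω) (Ψ : ℝ → Ω → Ω) (F : ℂ × Ω → ℝ) (A : ℂ → ℂ) (π : Ω → Ω)
    (s : ℂ → ℝ) : Prop :=
  ∀ᵐ ω ∂(nu.prod m), F (A ω.1, π (Ψ (s ω.1) ω.2)) = F ω

lemma RelG.comp {m : Measure Ω} [IsProbabilityMeasure m] {Ψ : ℝ → Ω → Ω} (hΨ : PFlow m Ψ)
    {F : ℂ × Ω → ℝ} (hF : Measurable F) {A B : ℂ → ℂ} (hA : MeasurePreserving A nu nu)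
    (hB : Measurable B) {π ρ : Ω → Ω} (hπ : Tw m Ψ π) (hρ : Tw m Ψ ρ)
    {s t : ℂ → ℝ} (hs : Measurable s) (ht : Measurable t)
    (h1 : RelG m Ψ F A π s) (h2 : RelG m Ψ F B ρ t) :
    RelG m Ψ F (fun u => B (A u)) (fun a => ρ (π a)) (fun u => t (A u) + s u) := by
  have hJ : MeasurePreserving (fun ω : ℂ × Ω => (A ω.1, π (Ψ (s ω.1) ω.2))) (nu.prod m)
      (nu.prod m) := ((MeasurePreserving.id nu).prod hπ.mp).comp (mp_shear hΨ hA hs)
  have h3 := hJ.quasiMeasurePreserving.ae h2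
  have h4 := ae_add_shift hΨ (F := fun ω : ℂ × Ω => F (ω.1, ρ (π ω.2)))
    (hF.comp (measurable_fst.prodMk ((hπ.comp hρ).mp.measurable.comp measurable_snd)))
    (A := fun u => B (A u)) (hB.comp hA.measurable)
    (s := fun u => t (A u)) (ht.comp hA.measurable) hs
  have h1' : ∀ᵐ ω ∂(nu.prod m), F (A ω.1, π (Ψ (s ω.1) ω.2)) = F ω := h1
  filter_upwards [h1', h3, h4] with ω g1 g2 g3
  have g3' : F (B (A ω.1), ρ (π (Ψ (t (A ω.1) + s ω.1) ω.2))) =
      F (B (A ω.1), ρ (π (Ψ (t (A ω.1)) (Ψ (s ω.1) ω.2)))) := g3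
  have g2' : F (B (A ω.1), ρ (Ψ (t (A ω.1)) (π (Ψ (s ω.1) ω.2)))) =
      F (A ω.1, π (Ψ (s ω.1) ω.2)) := g2
  rw [g3', ← hπ.com]
  exact g2'.trans g1

lemma RelG.congr {m : Measure Ω} {Ψ : ℝ → Ω → Ω} {F : ℂ × Ω → ℝ} {A B : ℂ → ℂ}
    {π ρ : Ω → Ω} {s t : ℂ → ℝ} (h1 : RelG m Ψ F A π s)
    (hAB : ∀ u, A u = B u) (hπ : ∀ a, π a = ρ a) (hst : ∀ u, s u = t u) : RelG m Ψ F B ρ t := by
  have : A = B := funext hAB
  subst this
  have : π = ρ := funext hπ
  subst this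
  have : s = t := funext hst
  subst this
  exact h1

namespace Triangle

variable (T : Triangle)

/-- The straightened invariant function is invariant under all times. -/
theorem all_times_of_relG {m : Measure Ω} [IsProbabilityMeasure m] {Ψ : ℝ → Ω → Ω}
    (hΨ : PFlow m Ψ) {ς : Fin 3 → Ω → Ω} (gi : ∀ i, Tw m Ψ (ς i))
    {F : ℂ × Ω → ℝ} (hFm : Measurable F) {C : ℝ} (hC : ∀ ω, |F ω| ≤ C)
    {k : Fin 3} (hk1 : T.rot k ≠ 1) (hk2 : T.rot k ≠ -1)
    (hR : ∀ i, RelG m Ψ F (T.refl i) (ς i) (fun u => dt (T.R i (T.P k) - T.P k) u)) :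
    ∀ᵐ u ∂nu, ∀ s : ℝ, ∀ᵐ w ∂m, F (u, Ψ s w) = F (u, w) := by
  set v : ℂ := T.R k (T.P k) - T.P k with hv
  have hv0 : v ≠ 0 := T.R_P_ne k
  set a : ℂ := T.rot k with ha
  set b : ℂ := T.rot (k + 2) with hb
  have hna : ‖a‖ = 1 := T.norm_rot k
  have hnb : ‖b‖ = 1 := T.norm_rot (k + 2)
  have ha0 : a ≠ 0 := by intro h; rw [h, norm_zero] at hna; exact zero_ne_one hna
  have hb0 : b ≠ 0 := by intro h; rw [h, norm_zero] at hnb; exact zero_ne_one hnb
  have hnai : ‖a⁻¹‖ = 1 := by rw [norm_inv, hna, inv_one]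
  have hnbi : ‖b⁻¹‖ = 1 := by rw [norm_inv, hnb, inv_one]
  have hf1 : ∀ i : Fin 3, i + 1 ≠ i := by decide
  have hf2 : ∀ i : Fin 3, i + 2 ≠ i := by decide
  have e1 : ∀ i : Fin 3, i + 2 + 2 = i + 1 := by decide
  have e2 : ∀ i : Fin 3, i + 2 + 1 = i := by decide
  have mdt : ∀ w : ℂ, Measurable fun u : ℂ => dt w u := fun w =>
    measurable_dt.comp (measurable_const.prodMk measurable_id)
  have m0 : Measurable fun _ : ℂ => (0:ℝ) := measurable_const
  have mre : ∀ i, Measurable (T.refl i) := fun i => (T.continuous_refl i).measurable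
  have mpr := T.measurePreserving_refl
  have r1 : RelG m Ψ F (T.refl (k + 1)) (ς (k + 1)) (fun _ => 0) :=
    (hR (k + 1)).congr (fun _ => rfl) (fun _ => rfl) (fun u => by
      rw [T.R_P_other (k + 1) k (hf1 k), sub_self]; simp [dt])
  have r2 : RelG m Ψ F (T.refl (k + 2)) (ς (k + 2)) (fun _ => 0) :=
    (hR (k + 2)).congr (fun _ => rfl) (fun _ => rfl) (fun u => by
      rw [T.R_P_other (k + 2) k (hf2 k), sub_self]; simp [dt])
  have r3 : RelG m Ψ F (T.refl k) (ς k) (fun u => dt v u) := hR k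
  -- the permutations
  let pα : Ω → Ω := fun c => ς (k + 2) (ς (k + 1) c)
  let pα' : Ω → Ω := fun c => ς (k + 1) (ς (k + 2) c)
  let pβ : Ω → Ω := fun c => ς (k + 1) (ς k c)
  let pβ' : Ω → Ω := fun c => ς k (ς (k + 1) c)
  have iα : Tw m Ψ pα := (gi (k + 1)).comp (gi (k + 2))
  have iα' : Tw m Ψ pα' := (gi (k + 2)).comp (gi (k + 1))
  have iβ : Tw m Ψ pβ := (gi k).comp (gi (k + 1))
  have iβ' : Tw m Ψ pβ' := (gi (k + 1)).comp (gi k)
  -- the four rotations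
  have hα : RelG m Ψ F (fun u => a * u) pα (fun _ => 0) :=
    (r1.comp hΨ hFm (mpr (k + 1)) (mre (k + 2)) (gi _) (gi _) m0 m0 r2).congr
      (fun u => T.refl_refl_eq_rot k u) (fun _ => rfl) (fun u => by simp)
  have hα' : RelG m Ψ F (fun u => a⁻¹ * u) pα' (fun _ => 0) :=
    (r2.comp hΨ hFm (mpr (k + 2)) (mre (k + 1)) (gi _) (gi _) m0 m0 r1).congr
      (fun u => T.refl_refl_eq_rot_inv k u) (fun _ => rfl) (fun u => by simp)
  have hβ : RelG m Ψ F (fun u => b * u) pβ (fun u => dt v u) := by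
    refine (r3.comp hΨ hFm (mpr k) (mre (k + 1)) (gi _) (gi _) (mdt v) m0 r1).congr (fun u => ?_)
      (fun _ => rfl) (fun u => by simp)
    have := T.refl_refl_eq_rot (k + 2) u
    rw [e1, e2] at this
    exact this
  have hβ' : RelG m Ψ F (fun u => b⁻¹ * u) pβ' (fun u => - dt (b * v) u) := by
    have h4 : ∀ u, T.refl k (T.refl (k + 1) u) = b⁻¹ * u := by
      intro u
      have := T.refl_refl_eq_rot_inv (k + 2) u
      rw [e1, e2] at this
      exact this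
    refine (r1.comp hΨ hFm (mpr (k + 1)) (mre k) (gi _) (gi _) m0 (mdt v) r3).congr h4 (fun _ => rfl)
      (fun u => ?_)
    have h5 : dt v (T.refl k (T.refl (k + 1) u)) = - dt v (T.refl (k + 1) u) :=
      T.shift_refl k (T.P k) _
    rw [h4, dt_mul_unit hnbi, inv_inv] at h5
    linarith
  -- the commutator
  set τ : ℂ := b * (a * v) - b * v with hτ
  have hτ0 : τ ≠ 0 := by
    have : τ = b * v * (a - 1) := by rw [hτ]; ring
    rw [this]
    exact mul_ne_zero (mul_ne_zero hb0 hv0) (sub_ne_zero.2 hk1)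
  have mpm : ∀ {c : ℂ}, ‖c‖ = 1 → MeasurePreserving (fun u => c * u) nu nu := fun hc =>
    measurePreserving_mul hc
  have mm : ∀ c : ℂ, Measurable (fun u : ℂ => c * u) := fun c => measurable_const_mul c
  have g1 := hβ'.comp hΨ hFm (mpm hnbi) (mm a⁻¹) iβ' iα' ((mdt _).neg) m0 hα'
  have g2 := g1.comp hΨ hFm ((mpm hnai).comp (mpm hnbi)) (mm b) (iβ'.comp iα') iβ
    (m0.add ((mdt _).neg)) (mdt v) hβ
  have g3 := g2.comp hΨ hFm ((mpm hnb).comp ((mpm hnai).comp (mpm hnbi))) (mm a)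
    ((iβ'.comp iα').comp iβ) iα
    (((mdt v).comp ((mm a⁻¹).comp (mm b⁻¹))).add (m0.add ((mdt _).neg))) m0 hα
  let pγ : Ω → Ω := fun c => pα (pβ (pα' (pβ' c)))
  have iγ : Tw m Ψ pγ := ((iβ'.comp iα').comp iβ).comp iα
  have hγ : RelG m Ψ F (fun u => u) pγ (fun u => dt τ u) := by
    refine g3.congr (fun u => ?_) (fun _ => rfl) (fun u => ?_)
    · show a * (b * (a⁻¹ * (b⁻¹ * u))) = u
      field_simp
    · show 0 + (dt v (a⁻¹ * (b⁻¹ * u)) + (0 + -dt (b * v) u)) = dt τ u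
      rw [dt_mul_unit hnai, dt_mul_unit hnbi, inv_inv, inv_inv, hτ, dt_sub_left]
      ring
  -- its conjugate
  have g4 := hα.comp hΨ hFm (mpm hna) measurable_id iα iγ m0 (mdt τ) hγ
  have g5 := g4.comp hΨ hFm (mpm hna) (mm a⁻¹) (iα.comp iγ) iα' (((mdt τ).comp (mm a)).add m0) m0 hα'
  let pδ : Ω → Ω := fun c => pα' (pγ (pα c))
  have iδ : Tw m Ψ pδ := (iα.comp iγ).comp iα'
  have hδ : RelG m Ψ F (fun u => u) pδ (fun u => dt (a⁻¹ * τ) u) := by
    refine g5.congr (fun u => ?_) (fun _ => rfl) (fun u => ?_)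
    · show a⁻¹ * (a * u) = u
      field_simp
    · show 0 + (dt τ (a * u) + 0) = dt (a⁻¹ * τ) u
      rw [dt_mul_unit hna]
      ring
  have hall := times_of_two hΨ hFm hC iγ iδ hγ hδ (ae_irrational_diff hτ0 hna hk1 hk2)
  have k1 : ∀ᵐ u ∂nu, ∀ᵐ w ∂m, F (u, Ψ (Real.sqrt 2) w) = F (u, w) :=
    Measure.ae_ae_of_ae_prod (hall _)
  have k2 : ∀ᵐ u ∂nu, ∀ᵐ w ∂m, F (u, Ψ 1 w) = F (u, w) := Measure.ae_ae_of_ae_prod (hall _)
  filter_upwards [k1, k2] with u h1 h2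
  intro s
  exact hΨ.all_times (f := fun w => F (u, w))
    (hFm.comp (measurable_const.prodMk measurable_id))
    (C := C) (fun w => hC _) h1 h2 (by rw [div_one]; exact irrational_sqrt_two) s

/-- For every triangle and all measure preserving wall maps which commute with the flow `Ψ`: the
bounded invariant functions only depend on the direction and on the parameter. -/
theorem relative_allG {m : Measure Ω} [IsProbabilityMeasure m] {Ψ : ℝ → Ω → Ω} (hΨ2 : PFlow m Ψ)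
    {ς : Fin 3 → Ω → Ω} [TwInv ς] [TwMP m ς] [TwCom Ψ ς]
    {H : ℂ → ℂ × Ω → ℝ} (hH : Bdd H) (hF : T.FreeInv m Ψ H) (hB : T.BounceInvS m ς Ψ H) :
    ∃ F : ℂ × Ω → ℝ, Measurable F ∧ (∃ C, ∀ ω, |F ω| ≤ C) ∧
      (∀ i, ∀ᵐ ω ∂(nu.prod m), F (T.refl i ω.1, ς i ω.2) = F ω) ∧
      (∀ s : ℝ, ∀ᵐ ω ∂(nu.prod m), F (ω.1, Ψ s ω.2) = F ω) ∧
      ∀ᵐ p ∂((volume.restrict T.table).prod (nu.prod m)), H p.1 p.2 = F p.2 := by
  obtain ⟨k, hk1, hk2⟩ := T.exists_rot_ne_neg_one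
  obtain ⟨F, hFm, ⟨C, hC⟩, hFH⟩ := T.exists_F hΨ2 hH hF
    (fun φ h1 h2 h3 => T.weakYS hΨ2 hH hF hB φ h1 h2 h3) (T.P k)
  have mdt : ∀ w : ℂ, Measurable fun u : ℂ => dt w u := fun w =>
    measurable_dt.comp (measurable_const.prodMk measurable_id)
  have hR : ∀ i, RelG m Ψ F (T.refl i) (ς i) (fun u => dt (T.R i (T.P k) - T.P k) u) := fun i =>
    T.F_reflS hΨ2 hH hB (T.P k) hFm hFH i
  have hall := T.all_times_of_relG hΨ2 (fun i => ⟨TwMP.mp i, fun t q => TwCom.com t i q⟩) hFm hC hk1 hk2 hR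
  have hinv : ∀ s : ℝ, ∀ᵐ ω ∂(nu.prod m), F (ω.1, Ψ s ω.2) = F ω := by
    intro s
    have hm1 : Measurable fun ω : ℂ × Ω => F (ω.1, Ψ s ω.2) :=
      hFm.comp (measurable_fst.prodMk (hΨ2.meas.comp (measurable_const.prodMk measurable_snd)))
    refine (Measure.ae_prod_mem_iff_ae_ae_mem (measurableSet_eq_fun hm1 hFm)).2 ?_
    filter_upwards [hall] with u hu
    exact hu s
  refine ⟨F, hFm, ⟨C, hC⟩, fun i => ?_, hinv, ?_⟩
  · -- reflections
    have h1 : ∀ᵐ u ∂nu, ∀ s : ℝ, ∀ᵐ w ∂m,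
        F (T.refl i u, Ψ s w) = F (T.refl i u, w) :=
      (T.measurePreserving_refl i).quasiMeasurePreserving.ae hall
    have hsg : MeasurePreserving (ς i) m m :=
      TwMP.mp (ς := ς) i
    have h2 : ∀ᵐ ω ∂(nu.prod m),
        F (T.refl i ω.1, Ψ (dt (T.R i (T.P k) - T.P k) ω.1) (ς i ω.2)) =
        F (T.refl i ω.1, ς i ω.2) := by
      have hmr : Measurable fun ω : ℂ × Ω => T.refl i ω.1 :=
        (T.continuous_refl i).measurable.comp measurable_fst
      have hm1 : Measurable fun ω : ℂ × Ω =>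
          F (T.refl i ω.1, Ψ (dt (T.R i (T.P k) - T.P k) ω.1) (ς i ω.2)) :=
        hFm.comp (hmr.prodMk (hΨ2.meas.comp (((mdt _).comp measurable_fst).prodMk
          (hsg.measurable.comp measurable_snd))))
      have hm2 : Measurable fun ω : ℂ × Ω => F (T.refl i ω.1, ς i ω.2) :=
        hFm.comp (hmr.prodMk (hsg.measurable.comp measurable_snd))
      refine (Measure.ae_prod_mem_iff_ae_ae_mem (measurableSet_eq_fun hm1 hm2)).2 ?_
      filter_upwards [h1] with u hu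
      exact hsg.quasiMeasurePreserving.ae (hu _)
    have h3 : ∀ᵐ ω ∂(nu.prod m),
        F (T.refl i ω.1, ς i (Ψ (dt (T.R i (T.P k) - T.P k) ω.1) ω.2)) = F ω :=
      hR i
    filter_upwards [h2, h3] with ω g1 g2
    show F (T.refl i ω.1, ς i ω.2) = F ω
    rw [← g1, TwCom.com (Ψ := Ψ) (ς := ς), g2]
  · -- straightening back
    have hSh : MeasurePreserving (fun p : ℂ × (ℂ × Ω) =>
        (p.1, (p.2.1, Ψ (-dt (p.1 - T.P k) p.2.1) p.2.2)))
        ((volume.restrict T.table).prod (nu.prod m))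
        ((volume.restrict T.table).prod (nu.prod m)) := by
      refine MeasurePreserving.skew_product
        (g := fun x (ω : ℂ × Ω) => (ω.1, Ψ (-dt (x - T.P k) ω.1) ω.2))
        (MeasurePreserving.id _) ?_ ?_
      · have h1 : Measurable fun p : ℂ × (ℂ × Ω) => dt (p.1 - T.P k) p.2.1 :=
          measurable_dt.comp ((measurable_fst.sub_const _).prodMk
            (measurable_fst.comp measurable_snd))
        exact (measurable_fst.comp measurable_snd).prodMk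
          (hΨ2.meas.comp (h1.neg.prodMk (measurable_snd.comp measurable_snd)))
      · exact ae_of_all _ fun x =>
          (mp_shear hΨ2 (MeasurePreserving.id nu) (mdt (x - T.P k)).neg).map_eq
    have h1 := hSh.quasiMeasurePreserving.ae hFH
    have hmd : Measurable fun p : ℂ × (ℂ × Ω) => dt (p.1 - T.P k) p.2.1 :=
      measurable_dt.comp ((measurable_fst.sub_const _).prodMk (measurable_fst.comp measurable_snd))
    have hmP : Measurable fun p : ℂ × (ℂ × Ω) =>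
        Ψ (-dt (p.1 - T.P k) p.2.1) p.2.2 :=
      hΨ2.meas.comp (hmd.neg.prodMk (measurable_snd.comp measurable_snd))
    have h2 : ∀ᵐ p ∂((volume.restrict T.table).prod (nu.prod m)),
        H p.1 (p.2.1, Ψ (dt (p.1 - T.P k) p.2.1) (Ψ (-dt (p.1 - T.P k) p.2.1) p.2.2)) =
          H p.1 p.2 := by
      have hm1 : Measurable fun p : ℂ × (ℂ × Ω) =>
          H p.1 (p.2.1, Ψ (dt (p.1 - T.P k) p.2.1)
            (Ψ (-dt (p.1 - T.P k) p.2.1) p.2.2)) :=
        hH.1.comp (measurable_fst.prodMk ((measurable_fst.comp measurable_snd).prodMk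
          (hΨ2.meas.comp (hmd.prodMk hmP))))
      have hms := measurableSet_eq_fun hm1 hH.1
      refine (Measure.ae_prod_mem_iff_ae_ae_mem hms).2 (ae_of_all _ fun x => ?_)
      refine (Measure.ae_prod_mem_iff_ae_ae_mem (measurable_prodMk_left hms)).2
        (ae_of_all _ fun u => ?_)
      filter_upwards [hΨ2.add (dt (x - T.P k) u) (-dt (x - T.P k) u), hΨ2.zero] with q h3 h4
      show H x (u, Ψ (dt (x - T.P k) u) (Ψ (-dt (x - T.P k) u) q)) = H x (u, q)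
      rw [← h3, add_neg_cancel, h4]
    have h3 : ∀ᵐ p ∂((volume.restrict T.table).prod (nu.prod m)),
        F (p.2.1, Ψ (-dt (p.1 - T.P k) p.2.1) p.2.2) = F p.2 := by
      have hms := measurableSet_eq_fun (hFm.comp ((measurable_fst.comp
        (measurable_snd (α := ℂ) (β := ℂ × Ω))).prodMk hmP))
        (hFm.comp (measurable_snd (α := ℂ) (β := ℂ × Ω)))
      refine (Measure.ae_prod_mem_iff_ae_ae_mem hms).2 (ae_of_all _ fun x => ?_)
      refine (Measure.ae_prod_mem_iff_ae_ae_mem (measurable_prodMk_left hms)).2 ?_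
      filter_upwards [hall] with u hu
      exact hu (-dt (x - T.P k) u)
    filter_upwards [h1, h2, h3] with p g1 g2 g3
    rw [← g2, g1, g3]


end Triangle

/-! ### the extended flow -/

variable {S : Type} [MeasurableSpace S] {n : Measure S} {σ : Fin 3 → S → S}

/-- the involutions -/
def WallMaps.invo (h : WallMaps n σ) : Invo S := ⟨σ, h.invol⟩

/-- the wall maps on `S × Ω` -/
def sgK {S : Type} (σ : Fin 3 → S → S) (i : Fin 3) (w : S × Ω) : S × Ω := (σ i w.1, w.2)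

lemma pflow_fl2K [IsProbabilityMeasure n] {m : Measure Ω} [IsProbabilityMeasure m]
    {Ψ : ℝ → Ω → Ω} (hΨ : PFlow m Ψ) : PFlow (n.prod m) (fl2 S Ψ) := by
  refine ⟨?_, fun t => (MeasurePreserving.id n).prod (hΨ.mp t), fun s t => ?_, ?_⟩
  · exact (measurable_fst.comp measurable_snd).prodMk
      (hΨ.meas.comp (measurable_fst.prodMk (measurable_snd.comp measurable_snd)))
  · have h1 : ∀ᵐ w ∂(n.prod m), Ψ (s + t) w.2 = Ψ s (Ψ t w.2) :=
      Measure.quasiMeasurePreserving_snd.ae (hΨ.add s t)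
    filter_upwards [h1] with w hw
    exact Prod.ext rfl hw
  · have h1 : ∀ᵐ w ∂(n.prod m), Ψ 0 w.2 = w.2 :=
      Measure.quasiMeasurePreserving_snd.ae hΨ.zero
    filter_upwards [h1] with w hw
    exact Prod.ext rfl hw

/-- a set with trivial sections -/
lemma prod_zero_one {X Y : Type} [MeasurableSpace X] [MeasurableSpace Y] {μ : Measure X}
    {m : Measure Y} [IsProbabilityMeasure μ] [IsProbabilityMeasure m] {C : Set (X × Y)}
    (hC : MeasurableSet C)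
    (h1 : ∀ᵐ y ∂m, μ ((fun x => (x, y)) ⁻¹' C) = 0 ∨ μ ((fun x => (x, y)) ⁻¹' C) = 1) :
    (μ.prod m) C = m {y | μ ((fun x => (x, y)) ⁻¹' C) = 1} := by
  have hB : MeasurableSet {y | μ ((fun x => (x, y)) ⁻¹' C) = 1} :=
    measurableSet_eq_fun (measurable_measure_prodMk_right hC) measurable_const
  rw [Measure.prod_apply_symm hC, ← lintegral_indicator_one hB]
  apply lintegral_congr_ae
  filter_upwards [h1] with y hy
  by_cases h : μ ((fun x => (x, y)) ⁻¹' C) = 1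
  · rw [indicator_of_mem (by exact h), h]; rfl
  · rw [indicator_of_notMem (by exact h), hy.resolve_right h]

lemma flowErgodic_unit : FlowErgodic (Measure.dirac ()) (fun (_ : ℝ) (q : Unit) => q) := by
  intro A hA _
  rw [Measure.dirac_apply' _ hA]
  by_cases h : () ∈ A
  · right; rw [indicator_of_mem h]; rfl
  · left; rw [indicator_of_notMem h]

lemma measure_eq_of_indicator {X Y : Type} [MeasurableSpace X] [MeasurableSpace Y]
    {μ : Measure X} {ν : Measure Y} {π : X → Y} (hπ : MeasurePreserving π μ ν) {A : Set X}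
    {g : Y → ℝ} (hg : Measurable g)
    (h : ∀ᵐ x ∂μ, A.indicator (fun _ => (1:ℝ)) x = g (π x)) : μ A = ν {y | g y = 1} := by
  have hB : MeasurableSet {y | g y = 1} := measurableSet_eq_fun hg measurable_const
  rw [← hπ.measure_preimage hB.nullMeasurableSet]
  apply measure_congr
  filter_upwards [h] with x hx
  apply propext
  show x ∈ A ↔ g (π x) = 1
  rw [← hx]
  by_cases hA : x ∈ A
  · simp [hA]
  · simp [hA]

lemma indicator_inv {X : Type} [MeasurableSpace X] {μ : Measure X} {φ : X → X} {A : Set X}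
    (h : μ (symmDiff (φ ⁻¹' A) A) = 0) :
    ∀ᵐ x ∂μ, A.indicator (fun _ => (1:ℝ)) (φ x) = A.indicator (fun _ => (1:ℝ)) x := by
  filter_upwards [Triangle.ae_iff_of_symmDiff h] with z hz
  have hz' : φ z ∈ A ↔ z ∈ A := hz
  by_cases hA' : z ∈ A
  · rw [indicator_of_mem hA', indicator_of_mem (hz'.mpr hA')]
  · rw [indicator_of_notMem hA', indicator_of_notMem (fun h => hA' (hz'.mp h))]

lemma symmDiff_null_of_ae {X : Type} [MeasurableSpace X] {μ : Measure X} {φ : X → X}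
    {A : Set X} (h : ∀ᵐ x ∂μ, φ x ∈ A ↔ x ∈ A) : μ (symmDiff (φ ⁻¹' A) A) = 0 := by
  rw [measure_symmDiff_eq_zero_iff]
  filter_upwards [h] with x hx
  exact propext hx

namespace Triangle

variable (T : Triangle) [IsProbabilityMeasure n]

instance : IsProbabilityMeasure T.mu := T.isProbabilityMeasure_mu

/-- transfer of almost everywhere statements -/
lemma ae_skew_iff {m : Measure Ω} [IsProbabilityMeasure m] {P : ((ℂ × ℂ) × S) × Ω → Prop} :
    (∀ᵐ z ∂((T.mu.prod n).prod m), P z) ↔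
      ∀ᵐ p ∂((volume.restrict T.table).prod (nu.prod (n.prod m))),
        P (((p.1, p.2.1), p.2.2.1), p.2.2.2) := by
  have h1 := measurePreserving_prodAssoc T.mu n m
  constructor
  · intro hP
    have h2 : ∀ᵐ w ∂(T.mu.prod (n.prod m)), P ((w.1, w.2.1), w.2.2) :=
      (h1.symm _).quasiMeasurePreserving.ae hP
    exact T.ae_prod_mu_iff.mp h2
  · intro hP
    have h2 : ∀ᵐ w ∂(T.mu.prod (n.prod m)), P ((w.1, w.2.1), w.2.2) := by
      rw [T.ae_prod_mu_iff]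
      exact hP
    exact h1.quasiMeasurePreserving.ae h2

lemma ae_dirK_iff {m : Measure Ω} [IsProbabilityMeasure m] {P : (ℂ × S) × Ω → Prop} :
    (∀ᵐ z ∂((nu.prod n).prod m), P z) ↔ ∀ᵐ p ∂(nu.prod (n.prod m)), P ((p.1, p.2.1), p.2.2) := by
  have h1 := measurePreserving_prodAssoc nu n m
  exact ⟨fun h => (h1.symm _).quasiMeasurePreserving.ae h,
    fun h => h1.quasiMeasurePreserving.ae h⟩

lemma mp_dir0 : MeasurePreserving (fun p : ℂ × ℂ => p.2) T.mu nu := by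
  have hp : IsProbabilityMeasure (ProbabilityTheory.cond (volume : Measure ℂ) T.table) :=
    ProbabilityTheory.cond_isProbabilityMeasure_of_finite T.volume_table_pos.ne'
      T.volume_table_lt_top.ne
  rw [mu]
  exact measurePreserving_snd

lemma mp_dir1 : MeasurePreserving (fun z : (ℂ × ℂ) × S => (z.1.2, z.2)) (T.mu.prod n)
    (nu.prod n) := T.mp_dir0.prod (MeasurePreserving.id n)

lemma mp_dirK (m : Measure Ω) [IsProbabilityMeasure m] :
    MeasurePreserving (fun z : ((ℂ × ℂ) × S) × Ω => ((z.1.1.2, z.1.2), z.2))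
      ((T.mu.prod n).prod m) ((nu.prod n).prod m) :=
  (T.mp_dir1 (n := n)).prod (MeasurePreserving.id m)

/-- bounded invariant functions -/
theorem invariant_bddK (hσ : WallMaps n σ) {m : Measure Ω} [IsProbabilityMeasure m]
    {Ψ : ℝ → Ω → Ω} (hΨ : PFlow m Ψ)
    {Φ : ℝ → (ℂ × ℂ) × S → (ℂ × ℂ) × S} (hb : T.IsSkewFlow n σ Φ)
    {f : ((ℂ × ℂ) × S) × Ω → ℝ} (hf : Measurable f) {C : ℝ} (hC : ∀ z, |f z| ≤ C)
    (hinv : ∀ t, ∀ᵐ z ∂((T.mu.prod n).prod m), f (Φ t z.1, Ψ t z.2) = f z) :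
    ∃ g : (ℂ × S) × Ω → ℝ, Measurable g ∧
      (∀ i, ∀ᵐ w ∂((nu.prod n).prod m), g ((T.refl i w.1.1, σ i w.1.2), w.2) = g w) ∧
      (∀ s : ℝ, ∀ᵐ w ∂((nu.prod n).prod m), g (w.1, Ψ s w.2) = g w) ∧
      ∀ᵐ z ∂((T.mu.prod n).prod m), f z = g ((z.1.1.2, z.1.2), z.2) := by
  set H : ℂ → ℂ × (S × Ω) → ℝ := fun x ω => f (((x, ω.1), ω.2.1), ω.2.2) with hH0
  have hH : Bdd H := ⟨hf.comp (by fun_prop), C, fun y ω => hC _⟩
  obtain ⟨Ψ1, _, _, hu, hgood⟩ := exists_good_flowK T hσ.invo n hσ.preserving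
  have hgood' : ∀ᵐ z ∂((T.mu.prod n).prod m), z.1.1.1 ∈ T.table ∧ T.Good z.1.1 ∧
      ∀ t, Ψ1 t z.1 = T.trajK hσ.invo t z.1 := Measure.quasiMeasurePreserving_fst.ae hgood
  have huz : ∀ t, ∀ᵐ z ∂((T.mu.prod n).prod m), Φ t z.1 = Ψ1 t z.1 := fun t =>
    Measure.quasiMeasurePreserving_fst.ae (hu Φ hb t)
  have hF : T.FreeInv (n.prod m) (fl2 S Ψ) H := by
    intro t ht
    have h1 : ∀ᵐ z ∂((T.mu.prod n).prod m), z.1.1.1 + t • z.1.1.2 ∈ T.table →
        f (((z.1.1.1 + t • z.1.1.2, z.1.1.2), z.1.2), Ψ t z.2) = f z := by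
      filter_upwards [hgood', huz t, hinv t] with z hz hz2 hz3 hin
      rw [← hz3, hz2, hz.2.2 t, hz.2.1.trajK_free ht.le hin]
    exact T.ae_skew_iff.mp h1
  have hB : T.BounceInvS (n.prod m) (sgK σ) (fl2 S Ψ) H := by
    intro t ht i
    have h1 : ∀ᵐ z ∂((T.mu.prod n).prod m), T.E i z.1.1 → T.hitT i z.1.1 < t →
        T.R i (z.1.1.1 + t • z.1.1.2) ∈ T.table →
        f (((T.R i (z.1.1.1 + t • z.1.1.2), T.refl i z.1.1.2), σ i z.1.2), Ψ t z.2) = f z := by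
      filter_upwards [hgood', huz t, hinv t] with z hz hz2 hz3 hE hlt hin
      rw [← hz3, hz2, hz.2.2 t, hz.2.1.trajK_bounce hE hlt hin]
      rfl
    exact T.ae_skew_iff.mp h1
  have i1 : TwInv (sgK (Ω := Ω) σ) :=
    ⟨fun i => ((hσ.preserving i).measurable.comp measurable_fst).prodMk measurable_snd,
      fun i q => Prod.ext (hσ.invol i _) rfl⟩
  have i2 : TwMP (n.prod m) (sgK (Ω := Ω) σ) :=
    ⟨fun i => (hσ.preserving i).prod (MeasurePreserving.id m)⟩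
  have i3 : TwCom (fl2 S Ψ) (sgK (Ω := Ω) σ) := ⟨fun t i q => rfl⟩
  obtain ⟨g, mg, -, rg, ig, hg⟩ := T.relative_allG (pflow_fl2K (n := n) hΨ) hH hF hB
  refine ⟨fun w => g (w.1.1, (w.1.2, w.2)), mg.comp (by fun_prop), fun i => ?_, fun s => ?_, ?_⟩
  · exact ae_dirK_iff.2 (rg i)
  · exact ae_dirK_iff.2 (ig s)
  · exact T.ae_skew_iff.2 hg

/-- invariant functions -/
theorem invariant_ofK (hσ : WallMaps n σ) {m : Measure Ω} [IsProbabilityMeasure m]
    {Ψ : ℝ → Ω → Ω} (hΨ : PFlow m Ψ)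
    {Φ : ℝ → (ℂ × ℂ) × S → (ℂ × ℂ) × S} (hb : T.IsSkewFlow n σ Φ)
    {f : ((ℂ × ℂ) × S) × Ω → ℝ} (hf : Measurable f)
    (hinv : ∀ t, ∀ᵐ z ∂((T.mu.prod n).prod m), f (Φ t z.1, Ψ t z.2) = f z) :
    ∃ g : (ℂ × S) × Ω → ℝ, Measurable g ∧
      (∀ i, ∀ᵐ w ∂((nu.prod n).prod m), g ((T.refl i w.1.1, σ i w.1.2), w.2) = g w) ∧
      (∀ s : ℝ, ∀ᵐ w ∂((nu.prod n).prod m), g (w.1, Ψ s w.2) = g w) ∧
      ∀ᵐ z ∂((T.mu.prod n).prod m), f z = g ((z.1.1.2, z.1.2), z.2) := by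
  obtain ⟨g, mg, rg, ig, hg⟩ := T.invariant_bddK hσ hΨ hb (f := fun z => Real.arctan (f z))
    (Real.continuous_arctan.measurable.comp hf) (C := Real.pi / 2) (fun z => by
      rw [abs_le]
      exact ⟨(Real.neg_pi_div_two_lt_arctan _).le, (Real.arctan_lt_pi_div_two _).le⟩)
    (fun t => by
      filter_upwards [hinv t] with z hz
      rw [hz])
  have mtan : Measurable Real.tan := by
    have : Real.tan = fun x => Real.sin x / Real.cos x := funext Real.tan_eq_sin_div_cos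
    rw [this]
    exact Real.measurable_sin.div Real.measurable_cos
  refine ⟨fun ω => Real.tan (g ω), mtan.comp mg, fun i => ?_, fun s => ?_, ?_⟩
  · filter_upwards [rg i] with ω hω
    rw [hω]
  · filter_upwards [ig s] with ω hω
    rw [hω]
  · filter_upwards [hg] with z hz
    rw [← hz, Real.tan_arctan]

/-- invariance under words -/
lemma word_invK (hσ : WallMaps n σ) {m : Measure Ω} [IsProbabilityMeasure m]
    {g : (ℂ × S) × Ω → ℝ}
    (hF : ∀ i, ∀ᵐ w ∂((nu.prod n).prod m), g ((T.refl i w.1.1, σ i w.1.2), w.2) = g w)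
    (l : List (Fin 3)) :
    ∀ᵐ w ∂((nu.prod n).prod m), g ((T.GU l w.1.1, GK hσ.invo l w.1.2), w.2) = g w := by
  induction l with
  | nil => exact ae_of_all _ fun ω => rfl
  | cons i l ih =>
    have h1 : MeasurePreserving (fun w : (ℂ × S) × Ω => ((T.refl i w.1.1, σ i w.1.2), w.2))
        ((nu.prod n).prod m) ((nu.prod n).prod m) :=
      ((T.measurePreserving_refl i).prod (hσ.preserving i)).prod (MeasurePreserving.id m)
    have h2 := h1.quasiMeasurePreserving.ae ih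
    filter_upwards [h2, hF i] with ω g1 g2
    show g ((T.GU l (T.refl i ω.1.1), GK hσ.invo l (σ i ω.1.2)), ω.2) = g ω
    exact g1.trans g2

/-- the converse -/
theorem invariant_convK (hσ : WallMaps n σ) {m : Measure Ω} [IsProbabilityMeasure m]
    {Ψ : ℝ → Ω → Ω} (hΨ : PFlow m Ψ)
    {Φ : ℝ → (ℂ × ℂ) × S → (ℂ × ℂ) × S} (hb : T.IsSkewFlow n σ Φ)
    {f : ((ℂ × ℂ) × S) × Ω → ℝ} {g : (ℂ × S) × Ω → ℝ}
    (hr : ∀ i, ∀ᵐ w ∂((nu.prod n).prod m), g ((T.refl i w.1.1, σ i w.1.2), w.2) = g w)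
    (hi : ∀ s : ℝ, ∀ᵐ w ∂((nu.prod n).prod m), g (w.1, Ψ s w.2) = g w)
    (hfg : ∀ᵐ z ∂((T.mu.prod n).prod m), f z = g ((z.1.1.2, z.1.2), z.2)) (t : ℝ) :
    ∀ᵐ z ∂((T.mu.prod n).prod m), f (Φ t z.1, Ψ t z.2) = f z := by
  obtain ⟨Θ, hΘ, hΘb, hu, hgood⟩ := exists_good_flowK T hσ.invo n hσ.preserving
  have h1 : MeasurePreserving (fun z : ((ℂ × ℂ) × S) × Ω => (Θ t z.1, Ψ t z.2))
      ((T.mu.prod n).prod m) ((T.mu.prod n).prod m) := (hΘ.mp t).prod (hΨ.mp t)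
  have h2 := h1.quasiMeasurePreserving.ae hfg
  have h3 : ∀ᵐ z ∂((T.mu.prod n).prod m), Φ t z.1 = Θ t z.1 :=
    Measure.quasiMeasurePreserving_fst.ae (hu Φ hb t)
  have h4' : ∀ᵐ z ∂(T.mu.prod n), ∃ w, (Θ t z).1.2 = T.GU w z.1.2 ∧
      (Θ t z).2 = GK hσ.invo w z.2 := by
    filter_upwards [hgood] with z hz
    rw [hz.2.2 t]
    exact exists_word_trajK z t
  have h4 : ∀ᵐ z ∂((T.mu.prod n).prod m), ∃ w, (Θ t z.1).1.2 = T.GU w z.1.1.2 ∧
      (Θ t z.1).2 = GK hσ.invo w z.1.2 := Measure.quasiMeasurePreserving_fst.ae h4'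
  have h5 : ∀ᵐ w ∂((nu.prod n).prod m), ∀ l,
      g ((T.GU l w.1.1, GK hσ.invo l w.1.2), w.2) = g w := by
    rw [ae_all_iff]
    intro l
    exact T.word_invK hσ hr l
  have h6 : MeasurePreserving (fun w : (ℂ × S) × Ω => (w.1, Ψ t w.2)) ((nu.prod n).prod m)
      ((nu.prod n).prod m) :=
    (MeasurePreserving.id (nu.prod n)).prod (hΨ.mp t)
  have h7 := (T.mp_dirK (n := n) m).quasiMeasurePreserving.ae (h6.quasiMeasurePreserving.ae h5)
  have h8 := (T.mp_dirK (n := n) m).quasiMeasurePreserving.ae (hi t)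
  filter_upwards [hfg, h2, h3, h4, h7, h8] with z g1 g2 g3 g4 g5 g6
  obtain ⟨w, hw, hw'⟩ := g4
  rw [g3, g2, hw, hw', g1]
  exact (g5 w).trans g6

/-- products with ergodic flows -/
theorem prod_ergodicK (hσ : WallMaps n σ) (hW : T.WallErgodic n σ) {m : Measure Ω}
    [IsProbabilityMeasure m] {Ψ : ℝ → Ω → Ω} (hΨ : PFlow m Ψ) (hE : FlowErgodic m Ψ)
    {Φ : ℝ → (ℂ × ℂ) × S → (ℂ × ℂ) × S} (hb : T.IsSkewFlow n σ Φ) :
    FlowErgodic ((T.mu.prod n).prod m) (fun t z => (Φ t z.1, Ψ t z.2)) := by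
  intro A hA hinv
  obtain ⟨g, mg, rg, ig, hg⟩ := T.invariant_ofK hσ hΨ hb (f := A.indicator (fun _ => (1:ℝ)))
    (measurable_const.indicator hA) (fun t => indicator_inv (hinv t))
  have hC : MeasurableSet {y | g y = 1} := measurableSet_eq_fun mg measurable_const
  rw [measure_eq_of_indicator (T.mp_dirK m) mg hg]
  have msw : ∀ {φ : (ℂ × S) × Ω → (ℂ × S) × Ω}, Measurable φ →
      (∀ᵐ w ∂((nu.prod n).prod m), g (φ w) = g w) →
      ∀ᵐ q ∂m, ∀ᵐ v ∂(nu.prod n), g (φ (v, q)) = g (v, q) := by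
    intro φ hφ h
    have hms : MeasurableSet {w : (ℂ × S) × Ω | g (φ w) = g w} :=
      measurableSet_eq_fun (mg.comp hφ) mg
    rw [← Measure.ae_ae_comm (p := fun v q => g (φ (v, q)) = g (v, q)) hms]
    exact Measure.ae_ae_of_ae_prod h
  have h1 : ∀ᵐ q ∂m, ∀ i, ∀ᵐ v ∂(nu.prod n), g ((T.refl i v.1, σ i v.2), q) = g (v, q) := by
    rw [ae_all_iff]
    intro i
    refine msw (φ := fun w => ((T.refl i w.1.1, σ i w.1.2), w.2)) ?_ (rg i)
    exact ((((T.continuous_refl i).measurable.comp measurable_fst).prodMk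
      ((hσ.preserving i).measurable.comp measurable_snd)).comp measurable_fst).prodMk measurable_snd
  rw [prod_zero_one hC (by
    filter_upwards [h1] with q hq
    refine hW _ (measurable_prodMk_right hC) fun i => symmDiff_null_of_ae ?_
    filter_upwards [hq i] with v hv
    show g ((T.refl i v.1, σ i v.2), q) = 1 ↔ g (v, q) = 1
    rw [hv])]
  refine hE _ (measurableSet_eq_fun (measurable_measure_prodMk_right hC) measurable_const)
    fun t => symmDiff_null_of_ae ?_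
  have h2 := msw (φ := fun w => (w.1, Ψ t w.2))
    (measurable_fst.prodMk ((hΨ.measurable_time t).comp measurable_snd)) (ig t)
  filter_upwards [h2] with q hq
  have h3 : (nu.prod n) ((fun x => (x, Ψ t q)) ⁻¹' {y | g y = 1}) =
      (nu.prod n) ((fun x => (x, q)) ⁻¹' {y | g y = 1}) := by
    apply measure_congr
    filter_upwards [hq] with v hv
    apply propext
    show g (v, Ψ t q) = 1 ↔ g (v, q) = 1
    rw [hv]
  show (nu.prod n) ((fun x => (x, Ψ t q)) ⁻¹' {y | g y = 1}) = 1 ↔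
    (nu.prod n) ((fun x => (x, q)) ⁻¹' {y | g y = 1}) = 1
  rw [h3]

theorem ergodic_iffK (hσ : WallMaps n σ) {Φ : ℝ → (ℂ × ℂ) × S → (ℂ × ℂ) × S}
    (hb : T.IsSkewFlow n σ Φ) : FlowErgodic (T.mu.prod n) Φ ↔ T.WallErgodic n σ := by
  refine ⟨fun h B hB hinv => ?_, fun hW =>
    FlowErgodic.fst (ν := Measure.dirac ()) (Ψ := fun (_ : ℝ) (q : Unit) => q)
      (T.prod_ergodicK hσ hW pflow_unit flowErgodic_unit hb)⟩
  have hA : MeasurableSet ((fun z : (ℂ × ℂ) × S => (z.1.2, z.2)) ⁻¹' B) :=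
    (T.mp_dir1 (n := n)).measurable hB
  rw [← (T.mp_dir1 (n := n)).measure_preimage hB.nullMeasurableSet]
  refine h _ hA fun t => symmDiff_null_of_ae ?_
  have h1 := T.invariant_convK hσ pflow_unit hb
    (f := fun z => B.indicator (fun _ => (1:ℝ)) (z.1.1.2, z.1.2))
    (g := fun w => B.indicator (fun _ => (1:ℝ)) w.1)
    (fun i => Measure.quasiMeasurePreserving_fst.ae (indicator_inv (hinv i)))
    (fun s => ae_of_all _ fun _ => rfl) (ae_of_all _ fun _ => rfl) t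
  filter_upwards [Measure.ae_ae_of_ae_prod h1] with z hz
  have h2 : B.indicator (fun _ => (1:ℝ)) ((Φ t z).1.2, (Φ t z).2) =
      B.indicator (fun _ => (1:ℝ)) (z.1.2, z.2) := hz.exists.choose_spec
  show ((Φ t z).1.2, (Φ t z).2) ∈ B ↔ (z.1.2, z.2) ∈ B
  by_cases a1 : ((Φ t z).1.2, (Φ t z).2) ∈ B <;> by_cases a2 : (z.1.2, z.2) ∈ B <;>
    simp [a1, a2] at h2 ⊢

theorem weakMixing_iffK (hσ : WallMaps n σ) {Φ : ℝ → (ℂ × ℂ) × S → (ℂ × ℂ) × S}
    (hb : T.IsSkewFlow n σ Φ) : FlowWeakMixing (T.mu.prod n) Φ ↔ T.WallErgodic n σ := by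
  refine ⟨fun h => (T.ergodic_iffK hσ hb).1 (FlowErgodic.fst h), fun hW => ?_⟩
  obtain ⟨Ψ1, hΨ1, hb1, hu, _⟩ := exists_good_flowK T hσ.invo n hσ.preserving
  have h1 := T.prod_ergodicK hσ hW hΨ1 ((T.ergodic_iffK hσ hb1).2 hW) hb
  refine FlowErgodic.congr h1 fun t => ?_
  have h2 : ∀ᵐ z ∂((T.mu.prod n).prod (T.mu.prod n)), Φ t z.2 = Ψ1 t z.2 :=
    Measure.quasiMeasurePreserving_snd.ae (hu Φ hb t)
  filter_upwards [h2] with z hz
  show (Φ t z.1, Ψ1 t z.2) = (Φ t z.1, Φ t z.2)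
  rw [hz]

end Triangle
end Vale.Agent.P099
end
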