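import Vale.Agent.N099.Flow
attribute [-instance] ProperSMul.toContinuousSMul IsTopologicalTorsor.toContinuousSMul IdemSemiring.toCanonicallyOrderedAdd IdemSemiring.toMulLeftMono IdemSemiring.toMulRightMono AddQuantale.instAddLeftMono AddQuantale.instAddRightMono Quantale.instMulLeftMono Quantale.instMulRightMono FiniteDimensional.rclike_to_real IsScalarTower.complexToReal FiniteDimensional.complexToReal
set_option linter.all false

/-!
# Invariance under the second flow, for arbitrary measure preserving wall maps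

Different directions give orthogonal eigenvectors of the translations of the unfolding.
-/

section
open MeasureTheory Set Filter Topology
namespace Vale.Agent.P099

open WM4

variable {Ω : Type} [MeasurableSpace Ω]

/-- a continuous function with two incommensurable periods is constant -/
lemma const_of_two_periods {φ : ℝ → ℝ} (hc : Continuous φ) {x y : ℝ}
    (hx : ∀ s, φ (s + x) = φ s) (hy : ∀ s, φ (s + y) = φ s) (hxy : Irrational (x / y)) (s : ℝ) :
    φ s = φ 0 := by
  let G : AddSubgroup ℝ :=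
    { carrier := {t | ∀ s, φ (s + t) = φ s}
      zero_mem' := fun s => by rw [add_zero]
      add_mem' := fun {a b} ha hb s => by rw [← add_assoc, hb, ha]
      neg_mem' := fun {a} ha s => by rw [← ha (s + -a), neg_add_cancel_right] }
  have hcl : IsClosed (G : Set ℝ) := by
    have : (G : Set ℝ) = ⋂ s, {t | φ (s + t) = φ s} := by
      ext t
      simp only [mem_iInter]
      rfl
    rw [this]
    exact isClosed_iInter fun s => isClosed_eq (hc.comp (continuous_const.add continuous_id))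
      continuous_const
  rcases AddSubgroup.dense_or_cyclic G with h | ⟨a, ha⟩
  · have h1 : closure (G : Set ℝ) = univ := h.closure_eq
    rw [hcl.closure_eq] at h1
    have h2 : s ∈ (G : Set ℝ) := by rw [h1]; trivial
    have h3 := h2 0
    rwa [zero_add] at h3
  · exfalso
    have hx' : x ∈ G := hx
    have hy' : y ∈ G := hy
    rw [ha, AddSubgroup.mem_closure_singleton] at hx' hy'
    obtain ⟨k, hk⟩ := hx'
    obtain ⟨l, hl⟩ := hy'
    apply hxy
    refine ⟨(k : ℚ) / l, ?_⟩
    rw [← hk, ← hl]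
    simp only [zsmul_eq_mul]
    push_cast
    by_cases ha0 : a = 0
    · exfalso
      apply hxy
      refine ⟨0, ?_⟩
      rw [← hk, ha0]; simp
    · rw [mul_div_mul_right _ _ ha0]

/-- a nonzero linear form takes a given value on a null set of directions -/
lemma ae_dt_ne_const {w : ℂ} (hw : w ≠ 0) (c : ℝ) : ∀ᵐ u ∂nu, dt w u ≠ c := by
  have hwc : (starRingEnd ℂ) w ≠ 0 := by simpa using hw
  set p : Polynomial ℂ := Polynomial.C ((starRingEnd ℂ) w) * Polynomial.X ^ 2 +
    Polynomial.C (-2 * (c : ℂ)) * Polynomial.X + Polynomial.C w with hp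
  have hp0 : p ≠ 0 := by
    intro h
    have h1 := congrArg (Polynomial.eval 0) h
    simp [hp] at h1
    exact hw h1
  have hfin : {u | p.IsRoot u}.Finite := Polynomial.finite_setOf_isRoot hp0
  have hnull : nu {u | p.IsRoot u} = 0 := by
    rw [← biUnion_of_singleton {u | p.IsRoot u}]
    exact (measure_biUnion_null_iff hfin.countable).2 fun z _ => nu_singleton z
  have h1 : ∀ᵐ u ∂nu, ¬ p.IsRoot u := by
    rw [ae_iff]
    simpa only [not_not] using hnull
  filter_upwards [ae_norm, h1] with u hu hu1 h0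
  apply hu1
  have hcu : (starRingEnd ℂ) u * u = 1 := by
    rw [mul_comm, Complex.mul_conj, Complex.normSq_eq_norm_sq, hu]; simp
  have h3 : (starRingEnd ℂ) w * u + w * (starRingEnd ℂ) u = 2 * (c : ℂ) := by
    have h4 : (starRingEnd ℂ) w * u + w * (starRingEnd ℂ) u = ((2 * dt w u : ℝ) : ℂ) := by
      apply Complex.ext <;> simp [dt] <;> ring
    rw [h4, h0]; simp
  simp only [hp, Polynomial.IsRoot.def, Polynomial.eval_add, Polynomial.eval_mul,
    Polynomial.eval_C, Polynomial.eval_pow, Polynomial.eval_X]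
  linear_combination u * h3 - w * hcu

lemma dt_sub_right (w u v : ℂ) : dt w (u - v) = dt w u - dt w v := by
  simp only [dt, Complex.sub_re, Complex.sub_im]; ring

/-- incommensurable projections of the difference of two directions -/
lemma ae_irrational_diff {τ a : ℂ} (hτ : τ ≠ 0) (ha : ‖a‖ = 1) (h1 : a ≠ 1) (h2 : a ≠ -1)
    (v : ℂ) : ∀ᵐ u ∂nu, Irrational ((dt τ u - dt τ v) / (dt (a⁻¹ * τ) u - dt (a⁻¹ * τ) v)) := by
  have ha0 : a ≠ 0 := by
    intro h; rw [h, norm_zero] at ha; exact zero_ne_one ha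
  have hr : ∀ r : ℚ, τ - ((r : ℝ) : ℂ) * (a⁻¹ * τ) ≠ 0 := by
    intro r h
    have h3 : τ * (a - ((r : ℝ) : ℂ)) = 0 := by
      have h4 : a * (τ - ((r : ℝ) : ℂ) * (a⁻¹ * τ)) = 0 := by rw [h, mul_zero]
      have h5 : a * (τ - ((r : ℝ) : ℂ) * (a⁻¹ * τ)) = τ * (a - ((r : ℝ) : ℂ)) := by
        field_simp
      rw [← h5, h4]
    have h6 : a = ((r : ℝ) : ℂ) := sub_eq_zero.1 ((mul_eq_zero.1 h3).resolve_left hτ)
    rw [h6, Complex.norm_real, Real.norm_eq_abs] at ha
    rcases eq_or_eq_neg_of_abs_eq ha with h7 | h7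
    · apply h1; rw [h6, h7]; simp
    · apply h2; rw [h6, h7]; simp
  have hall : ∀ᵐ u ∂nu, ∀ r : ℚ, dt (τ - ((r : ℝ) : ℂ) * (a⁻¹ * τ)) u ≠
      dt (τ - ((r : ℝ) : ℂ) * (a⁻¹ * τ)) v := by
    rw [ae_all_iff]
    intro r
    exact ae_dt_ne_const (hr r) _
  have hne : a⁻¹ * τ ≠ 0 := mul_ne_zero (inv_ne_zero ha0) hτ
  filter_upwards [hall, ae_dt_ne_const hne (dt (a⁻¹ * τ) v)] with u hu hy
  rintro ⟨r, hr'⟩
  apply hu r
  have hy' : dt (a⁻¹ * τ) u - dt (a⁻¹ * τ) v ≠ 0 := sub_ne_zero.2 hy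
  rw [eq_div_iff hy'] at hr'
  rw [dt_sub_left, dt_sub_left, dt_real_mul_left, dt_real_mul_left]
  linarith

lemma int_bddR {X : Type*} [MeasurableSpace X] {μ : Measure X} [IsFiniteMeasure μ] {f : X → ℝ}
    (hf : Measurable f) {C : ℝ} (hC : ∀ x, |f x| ≤ C) : Integrable f μ :=
  Integrable.of_bound hf.aestronglyMeasurable C (ae_of_all _ fun x => by
    rw [Real.norm_eq_abs]; exact hC x)

lemma abs_mul_le_mul' {a b A B : ℝ} (ha : |a| ≤ A) (hb : |b| ≤ B) : |a * b| ≤ A * B := by
  rw [abs_mul]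
  exact mul_le_mul ha hb (abs_nonneg _) ((abs_nonneg _).trans ha)

/-- a family of vectors with vanishing Gram kernel vanishes -/
lemma ae_zero_of_gram {m : Measure Ω} [IsProbabilityMeasure m] {G : ℂ × Ω → ℝ}
    (hG : Measurable G) {C : ℝ} (hC : ∀ ω, |G ω| ≤ C)
    (h : ∀ᵐ v ∂nu, ∀ᵐ u ∂nu, ∫ q, G (u, q) * G (v, q) ∂m = 0) :
    ∀ᵐ ω ∂(nu.prod m), G ω = 0 := by
  have key : ∀ ψ : ℂ → ℝ, Measurable ψ → (∀ u, |ψ u| ≤ 1) →
      ∀ᵐ q ∂m, ∫ u, G (u, q) * ψ u ∂nu = 0 := by
    intro ψ hψ hψb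
    set I : Ω → ℝ := fun q => ∫ u, G (u, q) * ψ u ∂nu with hI
    have mI0 : Measurable fun z : ℂ × Ω => G z * ψ z.1 := hG.mul (hψ.comp measurable_fst)
    have mI : Measurable I :=
      (StronglyMeasurable.integral_prod_left (μ := nu) (f := fun u q => G (u, q) * ψ u)
        mI0.stronglyMeasurable).measurable
    have bI : ∀ q, |I q| ≤ C * 1 := by
      intro q
      have := norm_integral_le_of_norm_le_const (μ := nu) (f := fun u => G (u, q) * ψ u)
        (C := C * 1) (ae_of_all _ fun u => by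
          rw [Real.norm_eq_abs]; exact abs_mul_le_mul' (hC _) (hψb _))
      simpa only [Real.norm_eq_abs, probReal_univ, mul_one] using this
    set W : ℂ × ℂ → Ω → ℝ := fun p q => (G (p.1, q) * ψ p.1) * (G (p.2, q) * ψ p.2) with hW
    have mW : Measurable (Function.uncurry W) := by
      have a1 : Measurable fun z : (ℂ × ℂ) × Ω => ((z.1.1, z.2) : ℂ × Ω) := by fun_prop
      have a2 : Measurable fun z : (ℂ × ℂ) × Ω => ((z.1.2, z.2) : ℂ × Ω) := by fun_prop
      exact (mI0.comp a1).mul (mI0.comp a2)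
    have iW : Integrable (Function.uncurry W) ((nu.prod nu).prod m) :=
      int_bddR mW (C := (C * 1) * (C * 1)) fun z =>
        abs_mul_le_mul' (abs_mul_le_mul' (hC _) (hψb _)) (abs_mul_le_mul' (hC _) (hψb _))
    have e1 : ∀ q, I q * I q = ∫ p, W p q ∂(nu.prod nu) := by
      intro q
      simp only [hI, hW]
      exact (integral_prod_mul (μ := nu) (ν := nu) (fun u => G (u, q) * ψ u)
        (fun u => G (u, q) * ψ u)).symm
    have e2 : ∫ q, I q * I q ∂m = 0 := by
      simp_rw [e1]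
      rw [← integral_integral_swap iW]
      apply integral_eq_zero_of_ae
      have mK : Measurable fun p : ℂ × ℂ => ∫ q, W p q ∂m :=
        (StronglyMeasurable.integral_prod_right (ν := m) mW.stronglyMeasurable).measurable
      refine (Measure.ae_prod_mem_iff_ae_ae_mem
        (measurableSet_eq_fun mK (measurable_const (a := (0:ℝ))))).2 ?_
      filter_upwards [h] with v hv
      filter_upwards [hv] with u hu
      show ∫ q, W (v, u) q ∂m = 0
      have : (fun q => W (v, u) q) = fun q => (ψ v * ψ u) * (G (u, q) * G (v, q)) := by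
        funext q
        simp only [hW]
        ring
      rw [this, integral_const_mul, hu, mul_zero]
    rw [integral_eq_zero_iff_of_nonneg (fun q => mul_self_nonneg _)
      (int_bddR (mI.mul mI) fun q => abs_mul_le_mul' (bI q) (bI q))] at e2
    filter_upwards [e2] with q hq
    exact mul_self_eq_zero.1 hq
  -- the truncated characters
  let χ : ℤ → ℂ → ℂ := fun k u => {u : ℂ | ‖u‖ = 1}.indicator (fun u => u ^ (-k)) u
  have hS : MeasurableSet {u : ℂ | ‖u‖ = 1} := measurableSet_eq_fun measurable_norm measurable_const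
  have mχ : ∀ k, Measurable (χ k) := fun k => (measurable_zpow' k).indicator hS
  have bχ : ∀ k u, ‖χ k u‖ ≤ 1 := by
    intro k u
    by_cases hu : ‖u‖ = 1
    · simp only [χ]
      rw [indicator_of_mem (by exact hu), norm_zpow, hu, one_zpow]
    · simp only [χ]
      rw [indicator_of_notMem (by exact hu), norm_zero]
      exact zero_le_one
  have hmode : ∀ᵐ q ∂m, ∀ k : ℤ, mode k (fun u => (G (u, q) : ℂ)) = 0 := by
    rw [ae_all_iff]
    intro k
    have h1 := key (fun u => (χ k u).re) (Complex.measurable_re.comp (mχ k))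
      (fun u => (Complex.abs_re_le_norm _).trans (bχ k u))
    have h2 := key (fun u => (χ k u).im) (Complex.measurable_im.comp (mχ k))
      (fun u => (Complex.abs_im_le_norm _).trans (bχ k u))
    filter_upwards [h1, h2] with q a1 a2
    have mq : Measurable fun u => G (u, q) := hG.comp measurable_prodMk_right
    have e1 : mode k (fun u => (G (u, q) : ℂ)) = ∫ u, (G (u, q) : ℂ) * χ k u ∂nu := by
      apply integral_congr_ae
      filter_upwards [ae_norm] with u hu
      simp only [χ]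
      rw [indicator_of_mem (by exact hu)]
    have hi : Integrable (fun u => (G (u, q) : ℂ) * χ k u) nu :=
      Integrable.of_bound ((Complex.measurable_ofReal.comp mq).mul (mχ k)).aestronglyMeasurable
        (C * 1) (ae_of_all _ fun u => by
          rw [norm_mul, Complex.norm_real, Real.norm_eq_abs]
          exact mul_le_mul (hC _) (bχ k u) (norm_nonneg _) ((abs_nonneg _).trans (hC (u, q))))
    rw [e1]
    apply Complex.ext
    · have := integral_re (𝕜 := ℂ) hi
      simp only [RCLike.re_to_complex] at this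
      rw [← this, Complex.zero_re, ← a1]
      congr 1
      funext u
      rw [Complex.re_ofReal_mul]
    · have := integral_im (𝕜 := ℂ) hi
      simp only [RCLike.im_to_complex] at this
      rw [← this, Complex.zero_im, ← a2]
      congr 1
      funext u
      rw [Complex.im_ofReal_mul]
  have hms : MeasurableSet {ω : ℂ × Ω | G ω = 0} := measurableSet_eq_fun hG measurable_const
  rw [Measure.ae_prod_iff_ae_ae hms, Measure.ae_ae_comm (p := fun u q => G (u, q) = 0) hms]
  filter_upwards [hmode] with q hq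
  have mq : Measurable fun u => (G (u, q) : ℂ) :=
    Complex.measurable_ofReal.comp (hG.comp measurable_prodMk_right)
  have hL : MemLp (fun u => (G (u, q) : ℂ)) 2 nu :=
    MemLp.of_bound mq.aestronglyMeasurable C (ae_of_all _ fun u => by
      rw [Complex.norm_real, Real.norm_eq_abs]; exact hC _)
  filter_upwards [ae_zero_of_mode _ hL hq] with u hu
  simpa using hu

/-- a measure preserving map which commutes with the flow -/
structure Tw (m : Measure Ω) (Ψ : ℝ → Ω → Ω) (π : Ω → Ω) : Prop where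
  mp : MeasurePreserving π m m
  com : ∀ t q, Ψ t (π q) = π (Ψ t q)

lemma Tw.comp {m : Measure Ω} {Ψ : ℝ → Ω → Ω} {π ρ : Ω → Ω} (h1 : Tw m Ψ π) (h2 : Tw m Ψ ρ) :
    Tw m Ψ (fun q => ρ (π q)) :=
  ⟨h2.mp.comp h1.mp, fun t q => by rw [h2.com, h1.com]⟩

/-- continuity of the correlations -/
lemma PFlow.continuous_corr {m : Measure Ω} [IsProbabilityMeasure m] {Ψ : ℝ → Ω → Ω}
    (hΨ : PFlow m Ψ) {f g : Ω → ℝ} (hf : Measurable f) (hg : Measurable g) {C : ℝ}
    (hfC : ∀ q, |f q| ≤ C) (hgC : ∀ q, |g q| ≤ C) :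
    Continuous fun s => ∫ q, f (Ψ s q) * g q ∂m := by
  rw [continuous_iff_continuousAt]
  intro s0
  have mf : ∀ s, Measurable fun q => f (Ψ s q) := fun s => hf.comp (hΨ.measurable_time s)
  have hD : Tendsto (fun h : ℝ => ∫ q, |f (Ψ h q) - f q| ∂m) (𝓝 0) (𝓝 0) := by
    have h1 := hΨ.tendsto_zero hf hfC
    have h2 := (ENNReal.tendsto_toReal ENNReal.zero_ne_top).comp h1
    rw [ENNReal.toReal_zero] at h2
    refine h2.congr fun h => ?_
    have := integral_norm_eq_lintegral_enorm (μ := m) (f := fun q => f (Ψ h q) - f q)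
      ((mf h).sub hf).aestronglyMeasurable
    simp only [Function.comp]
    rw [← this]
    rfl
  have hle : ∀ s, |∫ q, f (Ψ s q) * g q ∂m - ∫ q, f (Ψ s0 q) * g q ∂m| ≤
      C * ∫ q, |f (Ψ (s - s0) q) - f q| ∂m := by
    intro s
    have i1 : ∀ s, Integrable (fun q => f (Ψ s q) * g q) m := fun s =>
      int_bddR ((mf s).mul hg) fun q => abs_mul_le_mul' (hfC _) (hgC _)
    have md : Measurable fun q => |f (Ψ (s - s0) q) - f q| :=
      continuous_abs.measurable.comp ((mf _).sub hf)
    have e1 : ∫ q, |f (Ψ (s - s0) q) - f q| ∂m =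
        ∫ q, |f (Ψ (s - s0) (Ψ s0 q)) - f (Ψ s0 q)| ∂m :=
      (integral_comp_mp (hΨ.mp s0) md).symm
    rw [← integral_sub (i1 s) (i1 s0), e1, ← integral_const_mul]
    refine (abs_integral_le_integral_abs).trans (integral_mono_ae ((i1 s).sub (i1 s0)).abs ?_ ?_)
    · refine (int_bddR (md.comp (hΨ.measurable_time s0)) (C := C + C) fun q => ?_).const_mul C
      simp only [Function.comp, abs_abs]
      exact (abs_sub _ _).trans (add_le_add (hfC _) (hfC _))
    · filter_upwards [hΨ.add (s - s0) s0] with q hq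
      rw [sub_add_cancel] at hq
      rw [← hq, ← sub_mul, abs_mul, mul_comm]
      exact mul_le_mul_of_nonneg_right (hgC q) (abs_nonneg _)
  have h3 : Tendsto (fun s => C * ∫ q, |f (Ψ (s - s0) q) - f q| ∂m) (𝓝 s0) (𝓝 0) := by
    have h4 : Tendsto (fun s : ℝ => s - s0) (𝓝 s0) (𝓝 0) := by
      have := (continuous_sub_right s0).tendsto s0
      rwa [sub_self] at this
    simpa using (hD.comp h4).const_mul C
  rw [ContinuousAt, tendsto_iff_dist_tendsto_zero]
  exact squeeze_zero (fun _ => dist_nonneg) (fun s => by rw [Real.dist_eq]; exact hle s) h3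

/-- a twisted invariance gives a period of the correlations -/
lemma PFlow.corr_period {m : Measure Ω} [IsProbabilityMeasure m] {Ψ : ℝ → Ω → Ω}
    (hΨ : PFlow m Ψ) {f g : Ω → ℝ} (hf : Measurable f) (hg : Measurable g) {π : Ω → Ω}
    (hπ : Tw m Ψ π) {a b : ℝ} (ha : ∀ᵐ q ∂m, f (π (Ψ a q)) = f q)
    (hb : ∀ᵐ q ∂m, g (π (Ψ b q)) = g q) (s : ℝ) :
    ∫ q, f (Ψ (s + (a - b)) q) * g q ∂m = ∫ q, f (Ψ s q) * g q ∂m := by
  have mF : Measurable fun y => f (Ψ (s + (a - b)) y) * g y :=
    (hf.comp (hΨ.measurable_time _)).mul hg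
  have h1 := integral_comp_mp (hπ.mp.comp (hΨ.mp b)) mF
  rw [← h1]
  apply integral_congr_ae
  have ha' := (hΨ.mp s).quasiMeasurePreserving.ae ha
  filter_upwards [ha', hb, hΨ.add (s + (a - b)) b, hΨ.add a s] with q g1 g2 g3 g4
  simp only [Function.comp]
  rw [g2, hπ.com, ← g3, show s + (a - b) + b = a + s by ring, g4, g1]

/-- two independent twisted translations force invariance under the flow -/
theorem times_of_two {m : Measure Ω} [IsProbabilityMeasure m] {Ψ : ℝ → Ω → Ω} (hΨ : PFlow m Ψ)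
    {F : ℂ × Ω → ℝ} (hF : Measurable F) {C : ℝ} (hC : ∀ ω, |F ω| ≤ C) {π ρ : Ω → Ω}
    (hπ : Tw m Ψ π) (hρ : Tw m Ψ ρ) {a b : ℂ → ℝ}
    (h1 : ∀ᵐ ω ∂(nu.prod m), F (ω.1, π (Ψ (a ω.1) ω.2)) = F ω)
    (h2 : ∀ᵐ ω ∂(nu.prod m), F (ω.1, ρ (Ψ (b ω.1) ω.2)) = F ω)
    (hirr : ∀ v, ∀ᵐ u ∂nu, Irrational ((a u - a v) / (b u - b v))) (s : ℝ) :
    ∀ᵐ ω ∂(nu.prod m), F (ω.1, Ψ s ω.2) = F ω := by
  have k1 : ∀ᵐ u ∂nu, ∀ᵐ q ∂m, F (u, π (Ψ (a u) q)) = F (u, q) := Measure.ae_ae_of_ae_prod h1
  have k2 : ∀ᵐ u ∂nu, ∀ᵐ q ∂m, F (u, ρ (Ψ (b u) q)) = F (u, q) := Measure.ae_ae_of_ae_prod h2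
  have mu : ∀ u, Measurable fun q => F (u, q) := fun u => hF.comp measurable_prodMk_left
  have corr : ∀ u v, (∀ᵐ q ∂m, F (u, π (Ψ (a u) q)) = F (u, q)) →
      (∀ᵐ q ∂m, F (u, ρ (Ψ (b u) q)) = F (u, q)) →
      (∀ᵐ q ∂m, F (v, π (Ψ (a v) q)) = F (v, q)) →
      (∀ᵐ q ∂m, F (v, ρ (Ψ (b v) q)) = F (v, q)) → Irrational ((a u - a v) / (b u - b v)) →
      ∫ q, F (u, Ψ s q) * F (v, q) ∂m = ∫ q, F (u, q) * F (v, q) ∂m := by
    intro u v a1 a2 a3 a4 a5
    have := const_of_two_periods
      (hΨ.continuous_corr (mu u) (mu v) (fun q => hC _) (fun q => hC _))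
      (hΨ.corr_period (mu u) (mu v) hπ a1 a3) (hΨ.corr_period (mu u) (mu v) hρ a2 a4) a5 s
    rw [this]
    apply integral_congr_ae
    filter_upwards [hΨ.zero] with q hq
    rw [hq]
  have mG : Measurable fun ω : ℂ × Ω => F (ω.1, Ψ s ω.2) - F ω :=
    (hF.comp (measurable_fst.prodMk ((hΨ.measurable_time s).comp measurable_snd))).sub hF
  have h3 := ae_zero_of_gram (m := m) mG (C := C + C)
    (fun ω => (abs_sub _ _).trans (add_le_add (hC _) (hC _))) (by
      filter_upwards [k1, k2] with v b1 b2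
      filter_upwards [k1, k2, hirr v] with u c1 c2 c3
      have c4 : Irrational ((a v - a u) / (b v - b u)) := by
        rw [← neg_sub (a u), ← neg_sub (b u), neg_div_neg_eq]
        exact c3
      have e1 := corr u v c1 c2 b1 b2 c3
      have e2 := corr v u b1 b2 c1 c2 c4
      have ms : ∀ u, Measurable fun q => F (u, Ψ s q) := fun u =>
        (mu u).comp (hΨ.measurable_time s)
      have e3 : ∫ q, F (u, Ψ s q) * F (v, Ψ s q) ∂m = ∫ q, F (u, q) * F (v, q) ∂m :=
        integral_comp_mp (hΨ.mp s) ((mu u).mul (mu v))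
      have i1 : Integrable (fun q => F (u, Ψ s q) * F (v, Ψ s q)) m :=
        int_bddR ((ms u).mul (ms v)) fun q => abs_mul_le_mul' (hC _) (hC _)
      have i2 : Integrable (fun q => F (u, Ψ s q) * F (v, q)) m :=
        int_bddR ((ms u).mul (mu v)) fun q => abs_mul_le_mul' (hC _) (hC _)
      have i3 : Integrable (fun q => F (v, Ψ s q) * F (u, q)) m :=
        int_bddR ((ms v).mul (mu u)) fun q => abs_mul_le_mul' (hC _) (hC _)
      have i4 : Integrable (fun q => F (u, q) * F (v, q)) m :=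
        int_bddR ((mu u).mul (mu v)) fun q => abs_mul_le_mul' (hC _) (hC _)
      have e4 : (fun q => (F (u, Ψ s q) - F (u, q)) * (F (v, Ψ s q) - F (v, q))) =
          fun q => (F (u, Ψ s q) * F (v, Ψ s q) - F (u, Ψ s q) * F (v, q)) -
            (F (v, Ψ s q) * F (u, q) - F (u, q) * F (v, q)) := by
        funext q; ring
      have e5 : ∫ q, F (v, q) * F (u, q) ∂m = ∫ q, F (u, q) * F (v, q) ∂m := by
        congr 1; funext q; ring
      show ∫ q, (F (u, Ψ s q) - F (u, q)) * (F (v, Ψ s q) - F (v, q)) ∂m = 0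
      have i5 : Integrable (fun q => F (u, Ψ s q) * F (v, Ψ s q) - F (u, Ψ s q) * F (v, q)) m :=
        i1.sub i2
      have i6 : Integrable (fun q => F (v, Ψ s q) * F (u, q) - F (u, q) * F (v, q)) m :=
        i3.sub i4
      rw [e4, integral_sub i5 i6, integral_sub i1 i2, integral_sub i3 i4, e1, e2,
        e3, e5]
      ring)
  filter_upwards [h3] with ω hω
  exact sub_eq_zero.1 hω

end Vale.Agent.P099
end
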