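import Vale.Agent.P099.H172.TwJ
import Vale.Agent.N099.Defs
attribute [-instance] ProperSMul.toContinuousSMul IsTopologicalTorsor.toContinuousSMul IdemSemiring.toCanonicallyOrderedAdd IdemSemiring.toMulLeftMono IdemSemiring.toMulRightMono AddQuantale.instAddLeftMono AddQuantale.instAddRightMono Quantale.instMulLeftMono Quantale.instMulRightMono FiniteDimensional.rclike_to_real IsScalarTower.complexToReal FiniteDimensional.complexToReal
set_option linter.all false

section
open MeasureTheory Set Filter Topology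
namespace Vale.Agent.P099

/-- three involutions -/
structure Invo (S : Type) where
  σ : Fin 3 → S → S
  invol : ∀ i s, σ i (σ i s) = s

lemma Invo.inj {S : Type} (G : Invo S) (i : Fin 3) : Function.Injective (G.σ i) := fun a b h => by
  rw [← G.invol i a, h, G.invol]

namespace Triangle

variable {T : Triangle} {S : Type} {G : Invo S}

/-- the local condition in the definition of a extended trajectory -/
def LocK (T : Triangle) (G : Invo S) (γ : ℝ → (ℂ × ℂ) × S) (t : ℝ) : Prop :=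
  ((γ t).1.1 ∈ T.table ∧
      ∀ᶠ s in 𝓝 t, γ s = (((γ t).1.1 + (s - t) • (γ t).1.2, (γ t).1.2), (γ t).2)) ∨
    ∃ i u a, (γ t).1.1 ∈ T.side i ∧
      (∀ᶠ s in 𝓝[<] t, γ s = (((γ t).1.1 + (s - t) • u, u), a)) ∧
      (∀ᶠ s in 𝓝[>] t, γ s = (((γ t).1.1 + (s - t) • T.refl i u, T.refl i u), G.σ i a))

lemma LocK.congr {γ γ' : ℝ → (ℂ × ℂ) × S} {t : ℝ} (h : T.LocK G γ t) (h' : γ' =ᶠ[𝓝 t] γ) :
    T.LocK G γ' t := by
  have e : γ' t = γ t := h'.eq_of_nhds
  rcases h with ⟨h1, h2⟩ | ⟨i, u, a, h1, h2, h3⟩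
  · refine Or.inl ⟨by rw [e]; exact h1, ?_⟩
    filter_upwards [h2, h'] with s hs hs'
    rw [hs', hs, e]
  · refine Or.inr ⟨i, u, a, by rw [e]; exact h1, ?_, ?_⟩
    · filter_upwards [h2, h'.filter_mono nhdsWithin_le_nhds] with s hs hs'
      rw [hs', hs, e]
    · filter_upwards [h3, h'.filter_mono nhdsWithin_le_nhds] with s hs hs'
      rw [hs', hs, e]

lemma LocK.reverse {γ : ℝ → (ℂ × ℂ) × S} {t : ℝ} (h : T.LocK G γ t) :
    T.LocK G (fun r => flipT (γ (-r))) (-t) := by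
  rcases h with ⟨h1, h2⟩ | ⟨i, u, a, h1, h2, h3⟩
  · refine Or.inl ⟨by simpa [flipT, flip] using h1, ?_⟩
    have h4 : Tendsto (fun r : ℝ => -r) (𝓝 (-t)) (𝓝 t) := by
      have := (continuous_neg (G := ℝ)).tendsto (-t)
      rwa [neg_neg] at this
    filter_upwards [h4.eventually h2] with r hr
    simp only [flipT, flip, neg_neg, hr]
    refine Prod.ext (Prod.ext ?_ rfl) rfl
    simp only [smul_neg, ← neg_smul]
    congr 2
    ring
  · refine Or.inr ⟨i, -T.refl i u, G.σ i a, by simpa [flipT, flip] using h1, ?_, ?_⟩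
    · have h4 : Tendsto (fun r : ℝ => -r) (𝓝[<] (-t)) (𝓝[>] t) := by
        have := tendsto_neg_nhdsLT (a := -t)
        rwa [neg_neg] at this
      filter_upwards [h4.eventually h3] with r hr
      simp only [flipT, flip, neg_neg, hr]
      refine Prod.ext (Prod.ext ?_ rfl) rfl
      simp only [smul_neg, ← neg_smul]
      congr 2
      ring
    · have h4 : Tendsto (fun r : ℝ => -r) (𝓝[>] (-t)) (𝓝[<] t) := by
        have := tendsto_neg_nhdsGT (a := -t)
        rwa [neg_neg] at this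
      filter_upwards [h4.eventually h2] with r hr
      simp only [flipT, flip, neg_neg, hr]
      refine Prod.ext (Prod.ext ?_ ?_) ?_
      · simp only [T.refl_neg, T.refl_refl, smul_neg, ← neg_smul]
        congr 2
        ring
      · simp only [T.refl_neg, T.refl_refl]
      · simp only [G.invol]

/-- the copy after `n` collisions -/
noncomputable def pmK (T : Triangle) (G : Invo S) (s : ℂ × ℂ) : ℕ → S → S
  | 0, a => a
  | n + 1, a => G.σ (T.ex (T.sq s n)) (pmK T G s n a)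

/-- forward motion -/
noncomputable def fwK (T : Triangle) (G : Invo S) (s : ℂ × ℂ) (a : S) (t : ℝ) : (ℂ × ℂ) × S :=
  (T.fw s t, T.pmK G s (T.idx s t) a)

lemma Good.fwK_eq {s : ℂ × ℂ} (h : T.Good s) (a : S) {n : ℕ} {t : ℝ} (h1 : T.tt s n ≤ t)
    (h2 : t < T.tt s (n + 1)) :
    T.fwK G s a t = (((T.sq s n).1 + (t - T.tt s n) • (T.sq s n).2, (T.sq s n).2),
      T.pmK G s n a) := by
  rw [fwK, h.fw_eq h1 h2, h.idx_eq h1 h2]

lemma Good.locK_interior {s : ℂ × ℂ} (h : T.Good s) (a : S) {n : ℕ} {t : ℝ} (h1 : T.tt s n < t)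
    (h2 : t < T.tt s (n + 1)) : T.LocK G (T.fwK G s a) t := by
  left
  have h3 : T.tt s (n + 1) = T.tt s n + T.tau s n := tt_succ s n
  constructor
  · rw [h.fwK_eq a h1.le h2]
    exact Triangle.E.mem_table T (h.sq n).adm (h.sq n).E (by linarith only [h1])
      (by change _ < T.tau s n; linarith only [h2, h3])
  · filter_upwards [Ioo_mem_nhds h1 h2] with r hr
    rw [h.fwK_eq a h1.le h2, h.fwK_eq a hr.1.le hr.2]
    refine Prod.ext (Prod.ext ?_ rfl) rfl
    simp only [add_assoc, ← add_smul]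
    congr 2
    ring

lemma Good.locK_collision {s : ℂ × ℂ} (h : T.Good s) (a : S) (n : ℕ) :
    T.LocK G (T.fwK G s a) (T.tt s (n + 1)) := by
  right
  have h3 : T.tt s (n + 1) = T.tt s n + T.tau s n := tt_succ s n
  have h4 : T.tt s n < T.tt s (n + 1) := h.tt_strictMono (Nat.lt_succ_self n)
  have h5 : T.tt s (n + 1) < T.tt s (n + 1 + 1) := h.tt_strictMono (Nat.lt_succ_self _)
  have h6 : T.fwK G s a (T.tt s (n + 1)) =
      (((T.sq s (n + 1)).1, (T.sq s (n + 1)).2), T.pmK G s (n + 1) a) := by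
    rw [h.fwK_eq a le_rfl h5]; simp
  refine ⟨T.ex (T.sq s n), (T.sq s n).2, T.pmK G s n a, ?_, ?_, ?_⟩
  · rw [h6]
    exact Triangle.E.hit_mem_side T (h.sq n).E
  · filter_upwards [Ioo_mem_nhdsLT h4] with r hr
    rw [h6, h.fwK_eq a hr.1.le hr.2]
    refine Prod.ext (Prod.ext ?_ rfl) rfl
    simp only [sq_succ_fst, add_assoc, ← add_smul]
    congr 2
    rw [h3]
    ring
  · filter_upwards [Ioo_mem_nhdsGT h5] with r hr
    rw [h6, h.fwK_eq a hr.1.le hr.2]
    rfl

lemma Good.locK_fw {s : ℂ × ℂ} (h : T.Good s) (a : S) {t : ℝ} (ht : 0 < t) :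
    T.LocK G (T.fwK G s a) t := by
  obtain ⟨n, h1, h2⟩ := h.exists_Ico ht.le
  rcases h1.lt_or_eq with h3 | h3
  · exact h.locK_interior a h3 h2
  · rcases n with _ | n
    · rw [tt_zero] at h3; exact absurd h3 ht.ne
    · rw [← h3]; exact h.locK_collision a n

/-- the extended trajectory of a phase point -/
noncomputable def trajK (T : Triangle) (G : Invo S) (t : ℝ) (z : (ℂ × ℂ) × S) : (ℂ × ℂ) × S :=
  if 0 ≤ t then T.fwK G z.1 z.2 t else flipT (T.fwK G (flip z.1) z.2 (-t))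

lemma Good.fwK_small {s : ℂ × ℂ} (h : T.Good s) (a : S) {t : ℝ} (ht : 0 ≤ t)
    (ht' : t < T.tau s 0) : T.fwK G s a t = ((s.1 + t • s.2, s.2), a) := by
  have h1 : T.tt s (0 + 1) = T.tau s 0 := by rw [tt_succ, tt_zero, zero_add]
  rw [h.fwK_eq a (n := 0) (by rw [tt_zero]; exact ht) (by rw [h1]; exact ht'), tt_zero, sub_zero]
  rfl

lemma trajK_zero {z : (ℂ × ℂ) × S} (h1 : T.Good z.1) : T.trajK G 0 z = z := by
  rw [trajK, if_pos le_rfl, h1.fwK_small z.2 le_rfl (h1.tau_pos 0)]; simp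

lemma trajK_fst {z : (ℂ × ℂ) × S} (t : ℝ) : (T.trajK G t z).1 = T.traj t z.1 := by
  unfold trajK traj
  split_ifs <;> rfl

lemma isSkewTrajectory_trajK {z : (ℂ × ℂ) × S} (hp : z.1.1 ∈ T.table) (h1 : T.Good z.1)
    (h2 : T.Good (flip z.1)) : T.IsSkewTrajectory G.σ (fun t => T.trajK G t z) := by
  have h0 : T.trajK G 0 z = z := trajK_zero h1
  intro t
  change T.LocK G (fun t => T.trajK G t z) t
  rcases lt_trichotomy t 0 with ht | ht | ht
  · have h3 : T.LocK G (T.fwK G (flip z.1) z.2) (-t) := h2.locK_fw z.2 (by linarith)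
    have h4 := h3.reverse
    rw [neg_neg] at h4
    apply h4.congr
    filter_upwards [Iio_mem_nhds ht] with r hr
    rw [mem_Iio] at hr
    rw [trajK, if_neg (by linarith)]
  · rw [ht]
    left
    refine ⟨by simp only [h0]; exact hp, ?_⟩
    have h3 : 0 < T.tau z.1 0 := h1.tau_pos 0
    have h4 : 0 < T.tau (flip z.1) 0 := h2.tau_pos 0
    filter_upwards [Ioo_mem_nhds (neg_neg_of_pos h4) h3] with r hr
    simp only [h0]
    rw [trajK]
    split_ifs with h5
    · rw [h1.fwK_small z.2 h5 hr.2, sub_zero]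
    · rw [h2.fwK_small z.2 (by linarith) (by linarith [hr.1]), sub_zero]
      simp [flip, flipT]
  · apply (h1.locK_fw z.2 ht).congr
    filter_upwards [Ioi_mem_nhds ht] with r hr
    rw [mem_Ioi] at hr
    rw [trajK, if_pos (by linarith)]

/-! ### the projection to the triangle, shifts, uniqueness -/

lemma IsSkewTrajectory.fst {γ : ℝ → (ℂ × ℂ) × S} (h : T.IsSkewTrajectory G.σ γ) :
    T.IsTrajectory (fun t => (γ t).1) := by
  intro t
  rcases h t with ⟨h1, h2⟩ | ⟨i, u, a, h1, h2, h3⟩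
  · refine Or.inl ⟨h1, ?_⟩
    filter_upwards [h2] with s hs
    rw [hs]
  · refine Or.inr ⟨i, u, h1, ?_, ?_⟩
    · filter_upwards [h2] with s hs
      rw [hs]
    · filter_upwards [h3] with s hs
      rw [hs]

lemma IsSkewTrajectory.shift {γ : ℝ → (ℂ × ℂ) × S} (hγ : T.IsSkewTrajectory G.σ γ) (a : ℝ) :
    T.IsSkewTrajectory G.σ (fun t => γ (t + a)) := by
  intro t
  have h1 : Tendsto (fun s : ℝ => s + a) (𝓝 t) (𝓝 (t + a)) :=
    (continuous_add_const a).tendsto t
  have h2 : Tendsto (fun s : ℝ => s + a) (𝓝[<] t) (𝓝[<] (t + a)) :=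
    tendsto_nhdsWithin_iff.2 ⟨h1.mono_left nhdsWithin_le_nhds, by
      filter_upwards [self_mem_nhdsWithin] with s hs
      rw [mem_Iio] at hs ⊢
      linarith⟩
  have h3 : Tendsto (fun s : ℝ => s + a) (𝓝[>] t) (𝓝[>] (t + a)) :=
    tendsto_nhdsWithin_iff.2 ⟨h1.mono_left nhdsWithin_le_nhds, by
      filter_upwards [self_mem_nhdsWithin] with s hs
      rw [mem_Ioi] at hs ⊢
      linarith⟩
  rcases hγ (t + a) with ⟨hT, hE⟩ | ⟨i, u, b, hS, hL, hR⟩
  · refine Or.inl ⟨hT, ?_⟩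
    filter_upwards [h1.eventually hE] with s hs
    rw [hs]
    congr 4
    ring
  · refine Or.inr ⟨i, u, b, hS, ?_, ?_⟩
    · filter_upwards [h2.eventually hL] with s hs
      rw [hs]
      congr 4
      ring
    · filter_upwards [h3.eventually hR] with s hs
      rw [hs]
      congr 4
      ring

/-- comparison of two extended trajectories at a time -/
lemma IsSkewTrajectory.cmp {γ δ : ℝ → (ℂ × ℂ) × S} (hγ : T.IsSkewTrajectory G.σ γ)
    (hδ : T.IsSkewTrajectory G.σ δ) (t : ℝ) :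
    ((∀ᶠ s in 𝓝[>] t, γ s = δ s) ∧ (∀ᶠ s in 𝓝[<] t, γ s = δ s) ∧
      ((γ t).1.1 ∈ T.table → γ t = δ t)) ∨
    ((∀ᶠ s in 𝓝[>] t, γ s ≠ δ s) ∧ (∀ᶠ s in 𝓝[<] t, γ s ≠ δ s)) := by
  rcases hγ t with ⟨hT, hE⟩ | ⟨i, u, a, hS, hL, hR⟩
  · rcases hδ t with ⟨hT', hE'⟩ | ⟨j, v, b, hS', hL', hR'⟩
    · by_cases hc : (γ t).1.1 = (δ t).1.1 ∧ (γ t).1.2 = (δ t).1.2 ∧ (γ t).2 = (δ t).2
      · left
        have h : ∀ᶠ s in 𝓝 t, γ s = δ s := by
          filter_upwards [hE, hE'] with s h1 h2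
          rw [h1, h2, hc.1, hc.2.1, hc.2.2]
        exact ⟨h.filter_mono nhdsWithin_le_nhds, h.filter_mono nhdsWithin_le_nhds,
          fun _ => Prod.ext (Prod.ext hc.1 hc.2.1) hc.2.2⟩
      · right
        have h : ∀ᶠ s in 𝓝 t, γ s ≠ δ s := by
          filter_upwards [hE, hE'] with s h1 h2 h3
          rw [h1, h2] at h3
          exact hc (ray_eqT h3)
        exact ⟨h.filter_mono nhdsWithin_le_nhds, h.filter_mono nhdsWithin_le_nhds⟩
    · right
      have hne : (γ t).1.1 ≠ (δ t).1.1 := fun h =>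
        T.not_mem_side_of_mem_table hT j (h ▸ hS')
      constructor
      · filter_upwards [hE.filter_mono nhdsWithin_le_nhds, hR'] with s h1 h2 h3
        rw [h1, h2] at h3
        exact hne (ray_eqT h3).1
      · filter_upwards [hE.filter_mono nhdsWithin_le_nhds, hL'] with s h1 h2 h3
        rw [h1, h2] at h3
        exact hne (ray_eqT h3).1
  · rcases hδ t with ⟨hT', hE'⟩ | ⟨j, v, b, hS', hL', hR'⟩
    · right
      have hne : (γ t).1.1 ≠ (δ t).1.1 := fun h =>
        T.not_mem_side_of_mem_table hT' i (h ▸ hS)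
      constructor
      · filter_upwards [hR, hE'.filter_mono nhdsWithin_le_nhds] with s h1 h2 h3
        rw [h1, h2] at h3
        exact hne (ray_eqT h3).1
      · filter_upwards [hL, hE'.filter_mono nhdsWithin_le_nhds] with s h1 h2 h3
        rw [h1, h2] at h3
        exact hne (ray_eqT h3).1
    · by_cases hc : (γ t).1.1 = (δ t).1.1 ∧ u = v ∧ a = b
      · left
        obtain ⟨hc1, rfl, rfl⟩ := hc
        have hij : i = j := T.side_unique hS (hc1 ▸ hS')
        subst hij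
        refine ⟨?_, ?_, fun h => absurd hS (T.not_mem_side_of_mem_table h i)⟩
        · filter_upwards [hR, hR'] with s h1 h2
          rw [h1, h2, hc1]
        · filter_upwards [hL, hL'] with s h1 h2
          rw [h1, h2, hc1]
      · right
        constructor
        · filter_upwards [hR, hR'] with s h1 h2 h3
          rw [h1, h2] at h3
          obtain ⟨h4, h5, h6⟩ := ray_eqT h3
          have hij : i = j := T.side_unique hS (h4 ▸ hS')
          subst hij
          apply hc ⟨h4, ?_, G.inj i h6⟩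
          rw [← T.refl_refl i u, h5, T.refl_refl]
        · filter_upwards [hL, hL'] with s h1 h2 h3
          rw [h1, h2] at h3
          exact hc (ray_eqT h3)

/-- uniqueness of extended trajectories -/
lemma IsSkewTrajectory.same {γ δ : ℝ → (ℂ × ℂ) × S} (hγ : T.IsSkewTrajectory G.σ γ)
    (hδ : T.IsSkewTrajectory G.σ δ) {a : ℝ} (ha : (γ a).1.1 ∈ T.table) (hae : γ a = δ a) {t : ℝ}
    (ht : (γ t).1.1 ∈ T.table) : γ t = δ t := by
  refine germ_same (P := fun t => (γ t).1.1 ∈ T.table) (fun t => IsSkewTrajectory.cmp hγ hδ t)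
    (a := a) ?_ ht
  rcases hγ a with ⟨_, hE⟩ | ⟨i, u, b, hS, _⟩
  · rcases hδ a with ⟨_, hE'⟩ | ⟨i, u, b, hS, _⟩
    · filter_upwards [hE.filter_mono nhdsWithin_le_nhds,
        hE'.filter_mono nhdsWithin_le_nhds] with s h1 h2
      rw [h1, h2, hae]
    · rw [← hae] at hS
      exact absurd hS (T.not_mem_side_of_mem_table ha i)
  · exact absurd hS (T.not_mem_side_of_mem_table ha i)

/-! ### free flights and single collisions -/

lemma pmK_one (s : ℂ × ℂ) (a : S) : T.pmK G s 1 a = G.σ (T.ex s) a := rfl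

lemma Good.trajK_free {z : (ℂ × ℂ) × S} (h : T.Good z.1) {t : ℝ} (ht : 0 ≤ t)
    (hin : z.1.1 + t • z.1.2 ∈ T.table) :
    T.trajK G t z = ((z.1.1 + t • z.1.2, z.1.2), z.2) := by
  rw [trajK, if_pos ht]
  exact h.fwK_small z.2 ht (lt_hitT_of_mem h.E hin)

lemma Good.trajK_bounce {z : (ℂ × ℂ) × S} (h : T.Good z.1) {t : ℝ} {i : Fin 3}
    (hE : T.E i z.1) (ht : T.hitT i z.1 < t) (hin : T.R i (z.1.1 + t • z.1.2) ∈ T.table) :
    T.trajK G t z = ((T.R i (z.1.1 + t • z.1.2), T.refl i z.1.2), G.σ i z.2) := by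
  have hex : T.ex z.1 = i := Triangle.E.unique T h.adm h.E hE
  have h0 : 0 < T.hitT i z.1 := Triangle.E.hitT_pos T h.adm hE
  have e1 : T.tt z.1 1 = T.hitT i z.1 := by
    rw [tt_succ, tt_zero, zero_add, tau]
    change T.hitT (T.ex z.1) z.1 = _
    rw [hex]
  have e2 : T.sq z.1 1 = T.hit i z.1 := by
    change T.hit (T.ex z.1) z.1 = _
    rw [hex]
  have hform : T.R i (z.1.1 + t • z.1.2) =
      (T.sq z.1 1).1 + (t - T.tt z.1 1) • (T.sq z.1 1).2 := by
    rw [e1, e2]
    have e3 : T.R i (T.hit i z.1).1 = (T.hit i z.1).1 := T.R_of_lam_eq_zero (T.lam_hit i hE)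
    have e4 : (T.hit i z.1).1 = z.1.1 + T.hitT i z.1 • z.1.2 := rfl
    have e5 : (T.hit i z.1).2 = T.refl i z.1.2 := rfl
    have e6 : z.1.1 + t • z.1.2 = (T.hit i z.1).1 + (t - T.hitT i z.1) • z.1.2 := by
      rw [e4, sub_smul]; ring
    rw [e6, T.R_add, e3, T.refl_smul, e5]
  have h2 : t < T.tt z.1 (1 + 1) := by
    rw [tt_succ, tau]
    have := lt_hitT_of_mem (h.sq 1).E (r := t - T.tt z.1 1) (by rw [← hform]; exact hin)
    linarith
  rw [trajK, if_pos (by linarith), h.fwK_eq z.2 (n := 1) (by rw [e1]; exact ht.le) h2, ← hform,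
    pmK_one, hex, e2]
  rfl

end Triangle
end Vale.Agent.P099
end
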